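import Vale.Agent.P261.LimSeq
import Vale.Agent.P251.F.CobLoc
import Vale.Agent.P251.I.F

/-!
# P261: towers of cobar complexes of law rings and reduction modulo `v_k`

* `QK p k N = N / (v_0, …, v_{k-1})`;
* `cobTow N r w`: the tower of the cobar complexes, in weight `w`, of a tower `N` of law rings;
* `vSeq`: multiplication by `v_k`.
-/

set_option linter.unusedSectionVars false
set_option linter.unusedVariables false

namespace Vale.Agent.P261

open Vale.Agent.P217 Vale.Agent.P251.F Vale.Agent.P251.S LawRing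

section QK

variable (p : ℕ) [Fact p.Prime] (k : ℕ) (N : Type) [CommRing N] [LawRing N]

/-- the ideal `(v_0, …, v_{k-1})` of a law ring -/
noncomputable abbrev IK : Ideal N := Ih p k (LawRing.law (N := N))

theorem IK_vanish_iff {B : Type} [CommRing B] (x : N →+* B) :
    (∀ a ∈ IK p k N, x a = 0) ↔ Ih p k ((LawRing.law (N := N)).map x) = ⊥ := by
  rw [Ih_map, Ideal.map_eq_bot_iff_le_ker]
  rfl

theorem invariant_IK : LawRing.Invariant (IK p k N) := by
  intro B _ f x hx
  rw [IK_vanish_iff] at hx ⊢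
  rw [law_act, Ih_smul, hx]

/-- The quotient of a law ring by `(v_0, …, v_{k-1})`. -/
abbrev QK : Type := N ⧸ IK p k N

noncomputable instance instLawRingQK : LawRing (QK p k N) :=
  LawRing.quotient _ (invariant_IK p k N)

theorem law_QK : LawRing.law (N := QK p k N) =
    (LawRing.law (N := N)).map (Ideal.Quotient.mk (IK p k N)) := rfl

theorem isLawHom_mk_QK : IsLawHom (Ideal.Quotient.mk (IK p k N)) where
  law := rfl
  act B _ f x := by
    refine RingHom.ext fun a => ?_
    rfl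

theorem Ih_QK : Ih p k (LawRing.law (N := QK p k N)) = ⊥ := by
  rw [law_QK, Ih_map, Ideal.map_quotient_self]

theorem vv_QK (i : ℕ) : vv p i (LawRing.law (N := QK p k N)) =
    Ideal.Quotient.mk (IK p k N) (vv p i (LawRing.law (N := N))) := by
  rw [law_QK, vv_map]

end QK

section strictConst

variable {T : Type} [CommRing T] [LawRing T] {n m : ℕ}

theorem Cob_map_sconst {b : T} (hb : ∀ (B : Type) [CommRing B] (g : InvSeries B) (x : T →+* B),
    g ∈ strict B → act g x b = x b) (α : Fin (m + 1) → Fin (n + 1)) :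
    Cob.map α (MvPolynomial.C b : Cob T m) = MvPolynomial.C b := by
  apply Cob.ext_ev
  intro B _ c
  rw [Cob.ev_map_res, Cob.ev_C, Cob.ev_C, Chain.res_pt, hb _ _ _ (c.strict _)]

theorem Cob_d_sconst_mul {b : T} (hb : ∀ (B : Type) [CommRing B] (g : InvSeries B)
    (x : T →+* B), g ∈ strict B → act g x b = x b) (x : Cob T n) :
    Cob.d n (MvPolynomial.C b * x) = MvPolynomial.C b * Cob.d n x := by
  rw [Cob.d_apply, Cob.d_apply, Finset.mul_sum]
  refine Finset.sum_congr rfl fun i _ => ?_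
  rw [_root_.map_mul, Cob_map_sconst hb, mul_smul_comm]

end strictConst

section vk

variable (p : ℕ) [Fact p.Prime] (k : ℕ) {N : Type} [CommRing N] [LawRing N]

/-- `v_k` is invariant under strict isomorphisms if `v_0, …, v_{k-1}` vanish. -/
theorem act_vv (hN : IK p k N = ⊥) (B : Type) [CommRing B] (g : InvSeries B) (x : N →+* B)
    (hg : g ∈ strict B) : act g x (vv p k (LawRing.law (N := N))) =
      x (vv p k (LawRing.law (N := N))) := by
  rw [← vv_map, ← vv_map, law_act]
  have h0 : ∀ i < k, vv p i ((LawRing.law (N := N)).map x) = 0 := by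
    intro i hi
    have h1 : vv p i (LawRing.law (N := N)) ∈ IK p k N := vv_mem_Ih hi _
    rw [hN, Ideal.mem_bot] at h1
    rw [vv_map, h1, map_zero]
  have h2 := (vv_smul_of_zero p k ((LawRing.law (N := N)).map x) g h0).2
  rwa [mem_strict.1 hg, one_pow, mul_one, one_mul] at h2

theorem isWt_vv {n : ℕ} :
    Cob.IsWt ((p ^ k : ℤ) - 1) (MvPolynomial.C (vv p k (LawRing.law (N := N))) : Cob N n) := by
  have h := Cob.isWt_v (N := N) (n := n) p k
  rwa [LawRing.ofLaz, Laz.lift_v] at h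

end vk

section tower

variable (N : ℕ → Type) [∀ j, CommRing (N j)] [∀ j, LawRing (N j)]
  (r : ∀ j, N (j + 1) →+* N j) (hr : ∀ j, IsLawHom (r j))

/-- The tower of cobar complexes in weight `w`. -/
noncomputable def cobTow (w : ℤ) : TowerCx.{0} where
  C s j := Cob.wt (N j) s w
  d s j := ((Cob.d s).comp (Cob.wt (N j) s w).subtype).codRestrict
    (Cob.wt (N j) (s + 1) w) fun x => Cob.IsWt.d x.2
  r s j := (((Cob.mapRing (r j) s).toAddMonoidHom).comp
    (Cob.wt (N (j + 1)) s w).subtype).codRestrict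
    (Cob.wt (N j) s w) fun x => Cob.IsWt.mapRing (hr j) x.2
  d_d _ _ x := Subtype.ext (Cob.d_d x.1)
  d_r _ j x := Subtype.ext (Cob.mapRing_d (hr j) x.1).symm

end tower

theorem towerN_eq (p h : ℕ) [Fact p.Prime] (w : ℤ) : Vale.Agent.P251.I.towerN p h w =
    cobTow (fun j => NN p h (j + 1)) (fun j => NN.red p h (Nat.le_succ (j + 1)))
      (fun j => isLawHom_NN_red p h _) w := rfl

section quot

variable (p : ℕ) [Fact p.Prime] (k : ℕ) {N N' : Type} [CommRing N] [LawRing N]
  [CommRing N'] [LawRing N']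

theorem IK_le_comap {φ : N' →+* N} (hφ : IsLawHom φ) :
    IK p k N' ≤ (IK p k N).comap φ := by
  rw [← Ideal.map_le_iff_le_comap, IK, IK, ← hφ.law, Ih_map]

theorem map_IK {φ : N' →+* N} (hφ : IsLawHom φ) : (IK p k N').map φ = IK p k N := by
  rw [IK, IK, ← hφ.law, Ih_map]

/-- the map on the quotients -/
noncomputable def QKmap {φ : N' →+* N} (hφ : IsLawHom φ) : QK p k N' →+* QK p k N :=
  Ideal.quotientMap (IK p k N) φ (IK_le_comap p k hφ)

@[simp] theorem QKmap_mk {φ : N' →+* N} (hφ : IsLawHom φ) (a : N') :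
    QKmap p k hφ (Ideal.Quotient.mk _ a) = Ideal.Quotient.mk _ (φ a) := rfl

theorem isLawHom_QKmap {φ : N' →+* N} (hφ : IsLawHom φ) : IsLawHom (QKmap p k hφ) where
  law := by
    rw [law_QK, law_QK, Law.map_map, ← hφ.law, Law.map_map]
    rfl
  act B _ f x := by
    refine Ideal.Quotient.ringHom_ext ?_
    exact hφ.act B f (x.comp (Ideal.Quotient.mk (IK p k N)))

theorem QKmap_surjective {φ : N' →+* N} (hφ : IsLawHom φ) (hs : Function.Surjective φ) :
    Function.Surjective (QKmap p k hφ) := by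
  intro a
  obtain ⟨a, rfl⟩ := Ideal.Quotient.mk_surjective a
  obtain ⟨b, rfl⟩ := hs a
  exact ⟨Ideal.Quotient.mk _ b, rfl⟩

theorem IK_mono {k l : ℕ} (hkl : k ≤ l) : IK p k N ≤ IK p l N := by
  rw [IK, Ih, Ideal.span_le]
  rintro _ ⟨i, hi, rfl⟩
  exact vv_mem_Ih (lt_of_lt_of_le hi hkl) _

/-- the map from the quotient by `(v_0, …, v_{k-1})` to the one by `(v_0, …, v_k)` -/
noncomputable def QKfac (N : Type) [CommRing N] [LawRing N] : QK p k N →+* QK p (k + 1) N :=
  Ideal.Quotient.factor (IK_mono p (Nat.le_succ k))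

@[simp] theorem QKfac_mk (a : N) :
    QKfac p k N (Ideal.Quotient.mk _ a) = Ideal.Quotient.mk _ a := rfl

theorem QKfac_comp_mk :
    (QKfac p k N).comp (Ideal.Quotient.mk (IK p k N)) = Ideal.Quotient.mk (IK p (k + 1) N) :=
  RingHom.ext fun _ => rfl

theorem isLawHom_QKfac : IsLawHom (QKfac p k N) where
  law := by
    rw [law_QK, law_QK, Law.map_map, QKfac_comp_mk]
  act B _ f x := by
    refine Ideal.Quotient.ringHom_ext ?_
    rw [RingHom.comp_assoc, QKfac_comp_mk, (isLawHom_mk_QK p (k + 1) N).act,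
      (isLawHom_mk_QK p k N).act, RingHom.comp_assoc, QKfac_comp_mk]

theorem QKfac_surjective : Function.Surjective (QKfac p k N) := by
  intro a
  obtain ⟨a, rfl⟩ := Ideal.Quotient.mk_surjective a
  exact ⟨Ideal.Quotient.mk _ a, rfl⟩

theorem IK_succ : IK p (k + 1) N = IK p k N ⊔ Ideal.span {vv p k (LawRing.law (N := N))} := by
  apply le_antisymm
  · rw [IK, Ih, Ideal.span_le]
    rintro _ ⟨i, hi, rfl⟩
    rcases Nat.lt_succ_iff_lt_or_eq.1 hi with h | rfl
    · exact Ideal.mem_sup_left (vv_mem_Ih h _)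
    · exact Ideal.mem_sup_right (Ideal.mem_span_singleton_self _)
  · refine sup_le (IK_mono p (Nat.le_succ k)) ?_
    rw [Ideal.span_singleton_le_iff_mem]
    exact vv_mem_Ih (Nat.lt_succ_self k) _

theorem QKfac_eq_zero {a : QK p k N} (ha : QKfac p k N a = 0) :
    ∃ b, vv p k (LawRing.law (N := QK p k N)) * b = a := by
  obtain ⟨a, rfl⟩ := Ideal.Quotient.mk_surjective a
  rw [QKfac_mk, Ideal.Quotient.eq_zero_iff_mem, IK_succ, Submodule.mem_sup] at ha
  obtain ⟨x, hx, y, hy, rfl⟩ := ha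
  obtain ⟨b, rfl⟩ := Ideal.mem_span_singleton.1 hy
  refine ⟨Ideal.Quotient.mk _ b, ?_⟩
  rw [vv_QK, map_add, map_mul, Ideal.Quotient.eq_zero_iff_mem.2 hx, zero_add]

theorem QKfac_vv : QKfac p k N (vv p k (LawRing.law (N := QK p k N))) = 0 := by
  rw [vv_QK, QKfac_mk, Ideal.Quotient.eq_zero_iff_mem]
  exact vv_mem_Ih (Nat.lt_succ_self k) _

end quot

section cob

variable {N N' : Type} [CommRing N] [CommRing N']

/-- Elements of the cobar complex whose image vanishes are multiples of `v`. -/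
theorem Cob_exists_mul {φ : N →+* N'} {v : N} (h : ∀ a, φ a = 0 → ∃ b, v * b = a) {n : ℕ}
    (y : Cob N n) (hy : Cob.mapRing φ n y = 0) :
    ∃ z : Cob N n, MvPolynomial.C v * z = y := by
  classical
  have h1 : ∀ m, ∃ b, v * b = y.coeff m := by
    intro m
    apply h
    have := congrArg (MvPolynomial.coeff m) hy
    rwa [Cob.mapRing, MvPolynomial.coeff_map, MvPolynomial.coeff_zero] at this
  choose b hb using h1
  refine ⟨∑ m ∈ y.support, MvPolynomial.monomial m (b m), ?_⟩
  ext m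
  rw [MvPolynomial.coeff_C_mul, MvPolynomial.coeff_sum]
  simp only [MvPolynomial.coeff_monomial]
  rw [Finset.sum_ite_eq']
  split_ifs with hm
  · exact hb m
  · rw [MvPolynomial.notMem_support_iff.1 hm, mul_zero]

theorem Cob_mapRing_eq_zero {φ : N →+* N'} {v : N} (h : ∀ a, v * a = 0 → φ a = 0) {n : ℕ}
    (y : Cob N n) (hy : MvPolynomial.C v * y = 0) : Cob.mapRing φ n y = 0 := by
  ext m
  rw [Cob.mapRing, MvPolynomial.coeff_map, MvPolynomial.coeff_zero]
  apply h
  have := congrArg (MvPolynomial.coeff m) hy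
  rwa [MvPolynomial.coeff_C_mul, MvPolynomial.coeff_zero] at this

/-- Surjectivity in every weight. -/
theorem Cob_exists_wt [LawRing N] [LawRing N'] {φ : N →+* N'} (hφ : IsLawHom φ)
    (hs : Function.Surjective φ) {n : ℕ} {w : ℤ} (y : Cob N' n) (hy : Cob.IsWt w y) :
    ∃ x : Cob N n, Cob.IsWt w x ∧ Cob.mapRing φ n x = y := by
  obtain ⟨x, rfl⟩ := Cob.mapRing_surjective (n := n) hs y
  refine ⟨Cob.proj w x, Cob.isWt_proj w x, ?_⟩
  rw [← Cob.proj_mapRing hφ, Cob.proj_of_isWt hy, if_pos rfl]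

end cob

section seq

variable (p : ℕ) [Fact p.Prime] (k : ℕ)
  (N : ℕ → Type) [∀ j, CommRing (N j)] [∀ j, LawRing (N j)]
  (r : ∀ j, N (j + 1) →+* N j) (hr : ∀ j, IsLawHom (r j))

/-- The tower of cobar complexes of `N / (v_0, …, v_{k-1})`. -/
noncomputable abbrev quoTow (w : ℤ) : TowerCx.{0} :=
  cobTow (fun j => QK p k (N j)) (fun j => QKmap p k (hr j))
    (fun j => isLawHom_QKmap p k (hr j)) w

/-- Multiplication by `v_k`. -/
noncomputable def vmul {N : Type} [CommRing N] [LawRing N] (n : ℕ) : Cob N n →+ Cob N n :=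
  AddMonoidHom.mulLeft (MvPolynomial.C (vv p k (LawRing.law (N := N))))

theorem vmul_apply {N : Type} [CommRing N] [LawRing N] (n : ℕ) (x : Cob N n) :
    vmul p k n x = MvPolynomial.C (vv p k (LawRing.law (N := N))) * x := rfl

theorem vmul_isWt {N : Type} [CommRing N] [LawRing N] {n : ℕ} {w : ℤ} {x : Cob N n}
    (hx : Cob.IsWt (w - ((p ^ k : ℤ) - 1)) x) : Cob.IsWt w (vmul p k n x) := by
  have := (isWt_vv (N := N) (n := n) p k).mul hx
  rwa [add_sub_cancel] at this

/-- If `y` has weight `w` and is a multiple of `v_k`, it is `v_k` times an element of weight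
`w - (p^k - 1)`. -/
theorem exists_vmul_isWt {N : Type} [CommRing N] [LawRing N] {n : ℕ} {w : ℤ} {y : Cob N n}
    (hy : Cob.IsWt w y) (z : Cob N n) (hz : vmul p k n z = y) :
    ∃ z : Cob N n, Cob.IsWt (w - ((p ^ k : ℤ) - 1)) z ∧ vmul p k n z = y := by
  classical
  refine ⟨Cob.proj (w - ((p ^ k : ℤ) - 1)) z, Cob.isWt_proj _ z, ?_⟩
  have h1 : ∀ v : ℤ, Cob.proj w (vmul p k n (Cob.proj v z)) =
      if v = w - ((p ^ k : ℤ) - 1) then vmul p k n (Cob.proj v z) else 0 := by
    intro v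
    have h2 : Cob.IsWt (v + ((p ^ k : ℤ) - 1)) (vmul p k n (Cob.proj v z)) := by
      apply vmul_isWt
      rw [add_sub_cancel_right]
      exact Cob.isWt_proj v z
    rw [Cob.proj_of_isWt h2]
    by_cases h : v = w - ((p ^ k : ℤ) - 1)
    · rw [if_pos h, if_pos (by rw [h]; ring)]
    · rw [if_neg h, if_neg (fun h3 => h (by linarith))]
  have h3 : Cob.proj w y = y := by rw [Cob.proj_of_isWt hy, if_pos rfl]
  have h4 : Cob.proj w (vmul p k n z) = vmul p k n (Cob.proj (w - ((p ^ k : ℤ) - 1)) z) := by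
    conv_lhs => rw [← Cob.sum_proj z]
    rw [map_sum, ← Cob.projHom_apply w, map_sum]
    simp only [Cob.projHom_apply, h1]
    rw [Finset.sum_ite_eq']
    split_ifs with h
    · rfl
    · rw [Cob.proj_eq_zero h, map_zero]
  rw [← h4, hz, h3]

/-- **Multiplication by `v_k`** on the tower modulo `(v_0, …, v_{k-1})`. -/
noncomputable def vSeq (hs : ∀ j, Function.Surjective (r j))
    (hreg : ∀ j (x : N (j + 1)), vv p k (LawRing.law (N := N (j + 1))) * x ∈ IK p k (N (j + 1)) →
      r j x ∈ IK p k (N j)) (w : ℤ) :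
    TowSeq (quoTow p k N r hr (w - ((p ^ k : ℤ) - 1))) (quoTow p k N r hr w)
      (quoTow p (k + 1) N r hr w) where
  i s j := ((vmul p k s).comp (Cob.wt (QK p k (N j)) s (w - ((p ^ k : ℤ) - 1))).subtype).codRestrict
    (Cob.wt (QK p k (N j)) s w) fun x => vmul_isWt p k x.2
  q s j := (((Cob.mapRing (QKfac p k (N j)) s).toAddMonoidHom).comp
    (Cob.wt (QK p k (N j)) s w).subtype).codRestrict
    (Cob.wt (QK p (k + 1) (N j)) s w) fun x => Cob.IsWt.mapRing (isLawHom_QKfac p k) x.2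
  i_d s j x := Subtype.ext (Cob_d_sconst_mul
    (fun B _ g y hg => act_vv p k (Ih_QK p k (N j)) B g y hg) x.1).symm
  q_d s j x := Subtype.ext (Cob.mapRing_d (isLawHom_QKfac p k) x.1)
  i_r s j x := Subtype.ext (by
    change vmul p k s (Cob.mapRing _ s x.1) = Cob.mapRing _ s (vmul p k s x.1)
    rw [vmul_apply, vmul_apply, map_mul]
    congr 1
    change _ = MvPolynomial.map (QKmap p k (hr j)) (MvPolynomial.C _)
    rw [MvPolynomial.map_C, ← (isLawHom_QKmap p k (hr j)).law, vv_map])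
  q_r s j x := Subtype.ext (by
    change Cob.mapRing _ s (Cob.mapRing _ s x.1) = Cob.mapRing _ s (Cob.mapRing _ s x.1)
    rw [Cob.mapRing_mapRing, Cob.mapRing_mapRing]
    congr 1
    refine congrArg (fun φ => Cob.mapRing φ s) (Ideal.Quotient.ringHom_ext ?_)
    rw [RingHom.comp_assoc, RingHom.comp_assoc, QKfac_comp_mk]
    exact RingHom.ext fun _ => rfl)
  inj s j x hx := Subtype.ext (by
    have h0 : vmul p k s x.1 = 0 := congrArg Subtype.val hx
    refine Cob_mapRing_eq_zero (v := vv p k (LawRing.law (N := QK p k (N (j + 1))))) ?_ x.1 h0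
    intro a ha
    obtain ⟨a, rfl⟩ := Ideal.Quotient.mk_surjective a
    rw [vv_QK, ← map_mul, Ideal.Quotient.eq_zero_iff_mem] at ha
    rw [QKmap_mk, Ideal.Quotient.eq_zero_iff_mem]
    exact hreg j a ha)
  surj s j y := by
    obtain ⟨x, hx, hxy⟩ := Cob_exists_wt (isLawHom_QKfac p k) (QKfac_surjective p k) y.1 y.2
    exact ⟨⟨x, hx⟩, Subtype.ext hxy⟩
  q_i s j x := Subtype.ext (by
    change Cob.mapRing _ s (vmul p k s x.1) = 0
    rw [vmul_apply, map_mul]
    change MvPolynomial.map (QKfac p k (N j)) (MvPolynomial.C _) * _ = 0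
    rw [MvPolynomial.map_C, QKfac_vv, map_zero, zero_mul])
  ex s j y hy := by
    obtain ⟨z, hz⟩ := Cob_exists_mul (φ := QKfac p k (N j))
      (v := vv p k (LawRing.law (N := QK p k (N j))))
      (fun a ha => QKfac_eq_zero p k ha) y.1 (congrArg Subtype.val hy)
    obtain ⟨z, hz, hzy⟩ := exists_vmul_isWt p k y.2 z hz
    exact ⟨⟨z, hz⟩, Subtype.ext hzy⟩
  rsurj s j y := by
    obtain ⟨x, hx, hxy⟩ := Cob_exists_wt (isLawHom_QKmap p k (hr j))
      (QKmap_surjective p k (hr j) (hs j)) y.1 y.2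
    exact ⟨⟨x, hx⟩, Subtype.ext hxy⟩

end seq

end Vale.Agent.P261
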