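import Vale.Agent.P261.FinMod
import Vale.Agent.P251.S.ExactCouple
import Mathlib.Data.Fintype.Basic

/-!
# P261: exact couples whose `E_2`-term is sparse

`Couple.EZ`, `Couple.EB`: cocycles and coboundaries in `E^s_n`. `Couple.Sparse q H`: the cohomology
in `E^s_n` is zero unless `s ≤ H` and `q ∣ n + s`. If `H + 1 < q` and the maps `D^{s+1}_n → D^s_n`
are zero for large `s`, then `D^0_n = 0` if there is no `s ≤ H` with `q ∣ n + s`
(`Couple.D_eq_zero`), and otherwise `D^0_n` is finite if and only if the cohomology in `E^s_n` is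
finite (`Couple.fin_of_finite`, `Couple.finite_of_fin`).
-/

universe u v

namespace Vale.Agent.P251.S

open Vale.Agent.P261

namespace Couple

variable (C : Couple.{u, v})

/-- cocycles in `E^s_n` -/
def EZ (s : ℕ) (n : ℤ) : AddSubgroup (C.E s n) := (C.d s n (n - 1) (by ring)).ker

/-- coboundaries in `E^s_n` -/
def EB : ∀ (s : ℕ) (n : ℤ), AddSubgroup (C.E s n)
  | 0, _ => ⊥
  | s + 1, n => (C.d s (n + 1) n rfl).range

lemma mem_EZ {s : ℕ} {n : ℤ} {z : C.E s n} : z ∈ C.EZ s n ↔ C.IsCocycle z := by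
  constructor
  · intro hz m h
    obtain rfl : m = n - 1 := by linarith
    exact hz
  · intro hz
    exact hz _ _

lemma mem_EB_succ {s : ℕ} {n : ℤ} {z : C.E (s + 1) n} : z ∈ C.EB (s + 1) n ↔ C.IsCobdy z :=
  Iff.rfl

lemma mem_EB_zero {n : ℤ} {z : C.E 0 n} : z ∈ C.EB 0 n ↔ z = 0 := AddSubgroup.mem_bot

/-- The cohomology in `E^s_n` is zero unless `s ≤ H` and `q ∣ n + s`. -/
def Sparse (q : ℤ) (H : ℕ) : Prop :=
  ∀ (s : ℕ) (n : ℤ), ¬ (s ≤ H ∧ q ∣ n + s) → C.EZ s n ≤ C.EB s n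

/-- The map `D^{s+1}_n → D^s_n` is zero for `s ≥ S`. -/
def Conv (S : ℕ) : Prop := ∀ s, S ≤ s → ∀ n, ∀ y : C.D (s + 1) n, C.i s n y = 0

/-- the map `D^s_n → D^0_n` -/
def pr (n : ℤ) : ∀ s : ℕ, C.D s n →+ C.D 0 n
  | 0 => AddMonoidHom.id _
  | s + 1 => (pr n s).comp (C.i s n)

lemma pr_zero (n : ℤ) (y : C.D 0 n) : C.pr n 0 y = y := rfl

lemma pr_succ (n : ℤ) (s : ℕ) (y : C.D (s + 1) n) : C.pr n (s + 1) y = C.pr n s (C.i s n y) := rfl

/-- the filtration of `D^0_n` -/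
def Fil (n : ℤ) (s : ℕ) : AddSubgroup (C.D 0 n) := (C.pr n s).range

variable {C}

lemma mem_Fil {n : ℤ} {s : ℕ} {x : C.D 0 n} : x ∈ C.Fil n s ↔ ∃ y, C.pr n s y = x := Iff.rfl

/-- a class which is a coboundary lies in the kernel of `k` -/
lemma k_eq_zero_of_mem_EB {s : ℕ} {n : ℤ} {z : C.E s n} (hz : z ∈ C.EB s n) (m : ℤ)
    (h : n = m + 1) : C.k s n m h z = 0 := by
  rcases s with _ | s
  · rw [mem_EB_zero] at hz
    rw [hz, map_zero]
  · exact (C.mem_EB_succ.1 hz).k_eq_zero m h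

/-- If `j y` is a coboundary then the image of `y` comes from the next filtration. -/
lemma pr_mem_of_j {s : ℕ} {n : ℤ} (y : C.D s n) (hy : C.j s n y ∈ C.EB s n) :
    C.pr n s y ∈ C.Fil n (s + 1) := by
  rcases s with _ | s
  · rw [mem_EB_zero] at hy
    obtain ⟨y', rfl⟩ := C.exact_j _ _ _ hy
    exact ⟨y', rfl⟩
  · obtain ⟨z, hz⟩ := hy
    rw [d_apply] at hz
    obtain ⟨y', hy'⟩ := C.exact_j (s + 1) n (y - C.k s (n + 1) n rfl z) (by
      rw [map_sub, hz, sub_self])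
    refine ⟨y', ?_⟩
    rw [pr_succ, hy', map_sub, pr_succ, pr_succ, C.i_k, map_zero, sub_zero]

lemma Fil_le_of_EZ_le {s : ℕ} {n : ℤ} (h : C.EZ s n ≤ C.EB s n) :
    C.Fil n s ≤ C.Fil n (s + 1) := by
  rintro _ ⟨y, rfl⟩
  exact pr_mem_of_j y (h (C.mem_EZ.2 (C.isCocycle_j y)))

lemma Fil_zero (n : ℤ) : C.Fil n 0 = ⊤ := by
  rw [eq_top_iff]
  intro x _
  exact ⟨x, rfl⟩

/-- A step of the filtration is finite if the cohomology is. -/
lemma finMod_Fil {s : ℕ} {n : ℤ} (h : FinMod (C.EZ s n) (C.EB s n)) :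
    FinMod (C.Fil n s) (C.Fil n (s + 1)) := by
  refine FinMod.of_rel (K' := C.EZ s n) (H' := C.EB s n)
    (fun x e => ∃ y, C.pr n s y = x ∧ C.j s n y = e) h _ (FinMod.refl _) ?_ ?_
  · rintro _ ⟨y, rfl⟩
    exact ⟨_, C.mem_EZ.2 (C.isCocycle_j y), y, rfl, rfl⟩
  · rintro _ - _ - _ _ ⟨y₁, rfl, rfl⟩ ⟨y₂, rfl, rfl⟩ he
    rw [← map_sub] at he ⊢
    exact pr_mem_of_j _ he

lemma Fil_eq_bot {S : ℕ} (hS : C.Conv S) (n : ℤ) (s : ℕ) (hs : S ≤ s) :
    C.Fil n (s + 1) = ⊥ := by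
  rw [eq_bot_iff]
  rintro _ ⟨y, rfl⟩
  rw [pr_succ, hS s hs n y, map_zero]
  exact AddSubgroup.zero_mem _

/-- The steps of the filtration are finite: then the filtration is finite. -/
lemma finMod_Fil_le {n : ℤ} (h : ∀ s, FinMod (C.EZ s n) (C.EB s n)) {a b : ℕ} (hab : a ≤ b) :
    FinMod (C.Fil n a) (C.Fil n b) := by
  induction b, hab using Nat.le_induction with
  | base => exact FinMod.refl _
  | succ b _ ih => exact ih.trans (finMod_Fil (h b))

lemma finMod_of_le {G : Type*} [AddCommGroup G] {K H : AddSubgroup G} (h : K ≤ H) :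
    FinMod K H := (FinMod.refl K).mono le_rfl h

/-- If the cohomology is finite in all `E^s_n`, then `D^0_n` is finite. -/
theorem finite_of_fin {S : ℕ} (hS : C.Conv S) {n : ℤ}
    (h : ∀ s, FinMod (C.EZ s n) (C.EB s n)) : Finite (C.D 0 n) := by
  have h1 := finMod_Fil_le h (Nat.zero_le (S + 1))
  rw [Fil_zero, Fil_eq_bot hS n S le_rfl] at h1
  have h2 := h1.finite_bot
  rw [AddSubgroup.coe_top] at h2
  exact Set.finite_univ_iff.1 h2

/-- If the cohomology is zero in all `E^s_n`, then `D^0_n` is zero. -/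
theorem D_eq_zero {S : ℕ} (hS : C.Conv S) {n : ℤ}
    (h : ∀ s, C.EZ s n ≤ C.EB s n) (y : C.D 0 n) : y = 0 := by
  have h1 : ∀ s, C.Fil n 0 ≤ C.Fil n s := by
    intro s
    induction s with
    | zero => exact le_rfl
    | succ s ih => exact ih.trans (Fil_le_of_EZ_le (h s))
  have h2 : y ∈ C.Fil n 0 := by
    rw [Fil_zero]
    exact AddSubgroup.mem_top y
  have h3 := h1 (S + 1) h2
  rwa [Fil_eq_bot hS n S le_rfl, AddSubgroup.mem_bot] at h3

/-! ### from `D` to `E_2` -/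

/-- Compatible families are zero. -/
lemma compatible_eq_zero {S : ℕ} (hS : C.Conv S) {s : ℕ} {m : ℤ}
    (u : ∀ r : ℕ, C.D (s + r) m) (hu : ∀ r, C.i (s + r) m (u (r + 1)) = u r) : u 0 = 0 := by
  have h1 : ∀ r, S ≤ s + r → u r = 0 := by
    intro r hr
    rw [← hu r]
    exact hS (s + r) hr m _
  have h2 : ∀ a r, r + a = S → u r = 0 := by
    intro a
    induction a with
    | zero =>
      intro r hr
      exact h1 r (by omega)
    | succ a ih =>
      intro r hr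
      rw [← hu r, ih (r + 1) (by omega), map_zero]
  by_cases hS0 : S ≤ s
  · exact h1 0 (by omega)
  · exact h2 S 0 (by omega)

variable {q : ℤ} {H : ℕ}

/-- Every cocycle lifts. -/
lemma exists_lift_of_sparse (hsp : C.Sparse q H) {S : ℕ} (hS : C.Conv S) (hH : (H : ℤ) < q)
    {s : ℕ} {n : ℤ} (hs : q ∣ n + s) {b : C.E s n} (hb : b ∈ C.EZ s n) :
    ∃ y : C.D s n, C.j s n y = b := by
  have hb' := C.mem_EZ.1 hb (n - 1) (by ring)
  rw [d_apply] at hb'
  obtain ⟨y, hy⟩ := C.exact_j _ _ _ hb'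
  refine C.exact_k s n (n - 1) (by ring) b ?_
  rw [← hy]
  refine C.i_eq_zero (s := s + 1) (m := n - 1) ?_
    (fun u hu => compatible_eq_zero hS u hu) y
  intro s' hs' b' hbc
  refine hsp (s' + 1) (n - 1) ?_ (C.mem_EZ.2 hbc)
  rintro ⟨h1, h2⟩
  obtain ⟨a, ha⟩ := hs
  obtain ⟨a', ha'⟩ := h2
  push_cast at ha'
  have h3 : q * (a' - a) = (s' : ℤ) - s := by
    rw [mul_sub, ← ha, ← ha']
    ring
  have h4 : (0 : ℤ) < (s' : ℤ) - s := by omega
  have h5 : (s' : ℤ) - s < q := by omega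
  have h6 : (0 : ℤ) < q := by omega
  rw [← h3] at h4 h5
  have h7 : 0 < a' - a := by
    by_contra hc
    have h8 : a' - a ≤ 0 := by omega
    nlinarith
  nlinarith

/-- `D^s_n → D^0_n` is injective on the image of `D^{s+1}_n`, for `s < s₀`. -/
lemma pr_injective_of_sparse (hsp : C.Sparse q H) {s₀ : ℕ} (hs₀ : (s₀ : ℤ) < q)
    {n : ℤ} (hn : q ∣ n + s₀) : ∀ s < s₀, ∀ y : C.D (s + 1) n, C.pr n s (C.i s n y) = 0 →
      C.i s n y = 0 := by
  intro s
  induction s with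
  | zero =>
    intro _ y hy
    exact hy
  | succ s ih =>
    intro hs y hy
    rw [pr_succ] at hy
    have h1 := ih (by omega) _ hy
    obtain ⟨z, hz⟩ := C.exact_i s (n + 1) n rfl _ h1
    rw [← hz]
    refine k_eq_zero_of_mem_EB (hsp s (n + 1) ?_ (C.mem_EZ.2 ?_)) n rfl
    · rintro ⟨-, h2⟩
      obtain ⟨a, ha⟩ := hn
      obtain ⟨a', ha'⟩ := h2
      have h3 : q * (a - a') = (s₀ : ℤ) - s - 1 := by
        rw [mul_sub, ← ha, ← ha']
        ring
      have h4 : (0 : ℤ) < (s₀ : ℤ) - s - 1 := by omega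
      have h5 : (s₀ : ℤ) - s - 1 < q := by omega
      have h6 : (0 : ℤ) < q := by omega
      rw [← h3] at h4 h5
      have h7 : 0 < a - a' := by
        by_contra hc
        have h8 : a - a' ≤ 0 := by omega
        nlinarith
      nlinarith
    · intro m hm
      obtain rfl : m = n := by linarith
      rw [d_apply, hz, C.j_i]

/-- An element of `D^s_n` with image zero in `D^0_n` maps to a coboundary. -/
lemma j_mem_EB_of_sparse (hsp : C.Sparse q H) {s : ℕ} (hs : (s : ℤ) < q)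
    {n : ℤ} (hn : q ∣ n + s) (y : C.D s n) (hy : C.pr n s y = 0) : C.j s n y ∈ C.EB s n := by
  rcases s with _ | s
  · rw [pr_zero] at hy
    rw [hy, map_zero]
    exact AddSubgroup.zero_mem _
  · rw [pr_succ] at hy
    have h1 := pr_injective_of_sparse hsp hs hn s (by omega) y hy
    obtain ⟨z, hz⟩ := C.exact_i s (n + 1) n rfl _ h1
    exact ⟨z, by rw [d_apply, hz]⟩

/-- **Finiteness of the cohomology from finiteness of `D^0_n`**, in the sparse range. -/
theorem fin_of_finite (hsp : C.Sparse q H) {S : ℕ} (hS : C.Conv S) (hH : (H : ℤ) < q)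
    {n : ℤ} [hf : Finite (C.D 0 n)] (s : ℕ) : FinMod (C.EZ s n) (C.EB s n) := by
  by_cases h : s ≤ H ∧ q ∣ n + s
  · obtain ⟨hs, hn⟩ := h
    have h1 : FinMod (⊤ : AddSubgroup (C.D 0 n)) ⊥ := FinMod.of_finite _ _ (Set.toFinite _)
    refine FinMod.of_rel (K' := ⊤) (H' := ⊥) (fun b x => ∃ y, C.j s n y = b ∧ C.pr n s y = x)
      h1 _ (FinMod.refl _) ?_ ?_
    · intro b hb
      obtain ⟨y, hy⟩ := exists_lift_of_sparse hsp hS hH hn hb
      exact ⟨_, AddSubgroup.mem_top _, y, hy, rfl⟩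
    · rintro _ - _ - _ _ ⟨y₁, rfl, rfl⟩ ⟨y₂, rfl, rfl⟩ he
      rw [← map_sub, AddSubgroup.mem_bot] at he
      rw [← map_sub]
      exact j_mem_EB_of_sparse hsp (by omega) hn _ he
  · exact finMod_of_le (hsp s n h)

/-- In the sparse range `D^0_n` is zero if there is no `s ≤ H` with `q ∣ n + s`. -/
theorem D_eq_zero_of_sparse (hsp : C.Sparse q H) {S : ℕ} (hS : C.Conv S) {n : ℤ}
    (hn : ∀ s : ℕ, s ≤ H → ¬ q ∣ n + s) (y : C.D 0 n) : y = 0 :=
  D_eq_zero hS (fun s => hsp s n fun h => hn s h.1 h.2) y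

end Couple

end Vale.Agent.P251.S
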