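import Mathlib.Algebra.Group.Subgroup.Ker
import Mathlib.Algebra.Group.Subgroup.Map
import Mathlib.Data.Set.Finite.Basic
import Mathlib.Data.Finite.Prod
import Mathlib.Tactic.Abel

/-!
# P261: finite quotients and the long exact sequence

`FinMod K H`: the image of the subgroup `K` in `G / H` is finite.
`Cx`: cochain complexes of abelian groups in degrees `≥ 0`; `Cx.Fin s`: `H^s` is finite.
`ShortEx`: short exact sequences of complexes, and the consequences of the long exact sequence for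
finiteness.
-/

universe u v

namespace Vale.Agent.P261

section FinMod

variable {G G' : Type*} [AddCommGroup G] [AddCommGroup G']

/-- The image of `K` in `G / H` is finite. -/
def FinMod (K H : AddSubgroup G) : Prop :=
  ∃ S : Set G, S.Finite ∧ ∀ x ∈ K, ∃ s ∈ S, x - s ∈ H

theorem FinMod.mono {K K' H H' : AddSubgroup G} (h : FinMod K H) (hK : K' ≤ K) (hH : H ≤ H') :
    FinMod K' H' := by
  obtain ⟨S, hS, h⟩ := h
  refine ⟨S, hS, fun x hx => ?_⟩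
  obtain ⟨s, hs, hx'⟩ := h x (hK hx)
  exact ⟨s, hs, hH hx'⟩

theorem FinMod.refl (K : AddSubgroup G) : FinMod K K :=
  ⟨{0}, Set.finite_singleton 0, fun x hx => ⟨0, rfl, by rwa [sub_zero]⟩⟩

/-- Representatives may be chosen in `K`. -/
theorem FinMod.exists_subset {K H : AddSubgroup G} (h : FinMod K H) :
    ∃ S : Set G, S.Finite ∧ S ⊆ K ∧ ∀ x ∈ K, ∃ s ∈ S, x - s ∈ H := by
  classical
  obtain ⟨S, hS, h⟩ := h
  let f : G → G := fun s => if hs : ∃ x ∈ K, x - s ∈ H then hs.choose else 0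
  have hf : ∀ s, f s ∈ K := by
    intro s
    by_cases hs : ∃ x ∈ K, x - s ∈ H
    · simp only [f, dif_pos hs]
      exact hs.choose_spec.1
    · simp only [f, dif_neg hs]
      exact K.zero_mem
  refine ⟨f '' S, hS.image f, ?_, fun x hx => ?_⟩
  · rintro _ ⟨s, -, rfl⟩
    exact hf s
  · obtain ⟨s, hs, hxs⟩ := h x hx
    have hs' : ∃ x ∈ K, x - s ∈ H := ⟨x, hx, hxs⟩
    refine ⟨f s, ⟨s, hs, rfl⟩, ?_⟩
    have h1 : f s - s ∈ H := by
      simp only [f, dif_pos hs']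
      exact hs'.choose_spec.2
    have h2 := H.sub_mem hxs h1
    rwa [sub_sub_sub_cancel_right] at h2

theorem FinMod.trans {K H L : AddSubgroup G} (h : FinMod K H) (h' : FinMod H L) :
    FinMod K L := by
  obtain ⟨S, hS, h⟩ := h
  obtain ⟨S', hS', h'⟩ := h'
  refine ⟨Set.image2 (· + ·) S S', hS.image2 _ hS', fun x hx => ?_⟩
  obtain ⟨s, hs, hxs⟩ := h x hx
  obtain ⟨s', hs', hxs'⟩ := h' _ hxs
  exact ⟨s + s', ⟨s, hs, s', hs', rfl⟩, by rwa [← sub_sub]⟩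

theorem FinMod.map {K H : AddSubgroup G} (h : FinMod K H) (f : G →+ G') :
    FinMod (K.map f) (H.map f) := by
  obtain ⟨S, hS, h⟩ := h
  refine ⟨f '' S, hS.image f, ?_⟩
  rintro _ ⟨x, hx, rfl⟩
  obtain ⟨s, hs, hxs⟩ := h x hx
  exact ⟨f s, ⟨s, hs, rfl⟩, ⟨_, hxs, map_sub f x s⟩⟩

theorem FinMod.comap {K H : AddSubgroup G'} (h : FinMod K H) (f : G →+ G') :
    FinMod (K.comap f) (H.comap f) := by
  classical
  obtain ⟨S, hS, h⟩ := h
  let g : G' → G := fun s => if hs : ∃ x : G, f x - s ∈ H then hs.choose else 0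
  refine ⟨g '' S, hS.image g, fun x hx => ?_⟩
  obtain ⟨s, hs, hxs⟩ := h (f x) hx
  have hs' : ∃ x : G, f x - s ∈ H := ⟨x, hxs⟩
  refine ⟨g s, ⟨s, hs, rfl⟩, ?_⟩
  have h1 : f (g s) - s ∈ H := by
    simp only [g, dif_pos hs']
    exact hs'.choose_spec
  have h2 := H.sub_mem hxs h1
  rw [sub_sub_sub_cancel_right, ← map_sub] at h2
  exact h2

/-- The main tool: `K / H` is finite if there is a map on `K` with values in a group, compatible
with differences, whose image is finite modulo `H'` and whose fibres are finite modulo `H`. -/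
theorem FinMod.of_rel {K H : AddSubgroup G} {K' H' : AddSubgroup G'}
    (R : G → G' → Prop) (h' : FinMod K' H') (L : AddSubgroup G) (hL : FinMod L H)
    (hex : ∀ x ∈ K, ∃ y ∈ K', R x y)
    (hR : ∀ x₁ ∈ K, ∀ x₂ ∈ K, ∀ y₁ y₂, R x₁ y₁ → R x₂ y₂ → y₁ - y₂ ∈ H' → x₁ - x₂ ∈ L) :
    FinMod K H := by
  classical
  have key : FinMod K L := by
    obtain ⟨S, hS, h⟩ := h'
    let P : G' → G → Prop := fun s x => x ∈ K ∧ ∃ y, R x y ∧ y - s ∈ H'
    let g : G' → G := fun s => if hs : ∃ x, P s x then hs.choose else 0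
    refine ⟨g '' S, hS.image g, fun x hx => ?_⟩
    obtain ⟨y, hy, hxy⟩ := hex x hx
    obtain ⟨s, hs, hys⟩ := h y hy
    have hs' : ∃ x, P s x := ⟨x, hx, y, hxy, hys⟩
    refine ⟨g s, ⟨s, hs, rfl⟩, ?_⟩
    have h1 : P s (g s) := by
      simp only [g, dif_pos hs']
      exact hs'.choose_spec
    obtain ⟨hg, y₂, hy₂, hys₂⟩ := h1
    refine hR x hx _ hg y y₂ hxy hy₂ ?_
    have h2 := H'.sub_mem hys hys₂
    rwa [sub_sub_sub_cancel_right] at h2
  exact key.trans hL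

theorem FinMod.of_finite (K H : AddSubgroup G) (h : (K : Set G).Finite) : FinMod K H :=
  ⟨K, h, fun x hx => ⟨x, hx, by rw [sub_self]; exact H.zero_mem⟩⟩

theorem FinMod.finite_bot {K : AddSubgroup G} (h : FinMod K ⊥) : (K : Set G).Finite := by
  obtain ⟨S, hS, h⟩ := h
  refine hS.subset fun x hx => ?_
  obtain ⟨s, hs, hxs⟩ := h x hx
  rw [AddSubgroup.mem_bot, sub_eq_zero] at hxs
  rwa [hxs]

end FinMod

/-! ### complexes -/

/-- A cochain complex of abelian groups in degrees `≥ 0`. -/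
structure Cx where
  /-- the groups -/
  C : ℕ → Type u
  [inst : ∀ s, AddCommGroup (C s)]
  /-- the differential -/
  d : ∀ s, C s →+ C (s + 1)
  d_d : ∀ s x, d (s + 1) (d s x) = 0

attribute [instance] Cx.inst

namespace Cx

variable (X : Cx.{u})

/-- cocycles -/
def Z (s : ℕ) : AddSubgroup (X.C s) := (X.d s).ker

/-- coboundaries -/
def B : ∀ s : ℕ, AddSubgroup (X.C s)
  | 0 => ⊥
  | s + 1 => (X.d s).range

theorem mem_Z {s : ℕ} {x : X.C s} : x ∈ X.Z s ↔ X.d s x = 0 := Iff.rfl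

theorem mem_B_succ {s : ℕ} {x : X.C (s + 1)} : x ∈ X.B (s + 1) ↔ ∃ y, X.d s y = x := Iff.rfl

theorem mem_B_zero {x : X.C 0} : x ∈ X.B 0 ↔ x = 0 := AddSubgroup.mem_bot

theorem B_le_Z (s : ℕ) : X.B s ≤ X.Z s := by
  rcases s with _ | s
  · exact bot_le
  · rintro _ ⟨y, rfl⟩
    exact X.d_d s y

/-- `H^s` is finite. -/
def Fin (s : ℕ) : Prop := FinMod (X.Z s) (X.B s)

end Cx

/-- A short exact sequence of complexes. -/
structure ShortEx (X Y W : Cx.{u}) where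
  /-- the injection -/
  i : ∀ s, X.C s →+ Y.C s
  /-- the surjection -/
  q : ∀ s, Y.C s →+ W.C s
  i_d : ∀ s x, i (s + 1) (X.d s x) = Y.d s (i s x)
  q_d : ∀ s x, q (s + 1) (Y.d s x) = W.d s (q s x)
  inj : ∀ s, Function.Injective (i s)
  surj : ∀ s, Function.Surjective (q s)
  q_i : ∀ s x, q s (i s x) = 0
  ex : ∀ s y, q s y = 0 → ∃ x, i s x = y

namespace ShortEx

variable {X Y W : Cx.{u}} (E : ShortEx X Y W)
include E

theorem i_mem_B {s : ℕ} {x : X.C s} (hx : x ∈ X.B s) : E.i s x ∈ Y.B s := by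
  rcases s with _ | s
  · rw [Cx.mem_B_zero] at hx ⊢
    rw [hx, map_zero]
  · obtain ⟨y, rfl⟩ := hx
    exact ⟨E.i s y, (E.i_d s y).symm⟩

theorem mem_Z_of_i {s : ℕ} {x : X.C s} (hx : Y.d s (E.i s x) = 0) : x ∈ X.Z s := by
  apply E.inj (s + 1)
  rw [E.i_d, hx, map_zero]

/-- exactness at `H^s(Y)` -/
theorem fin_mid {s : ℕ} (hX : X.Fin s) (hW : W.Fin s) : Y.Fin s := by
  refine FinMod.of_rel (K' := W.Z s) (H' := W.B s) (fun y w => E.q s y = w) hW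
    ((X.Z s).map (E.i s) ⊔ Y.B s) ?_ ?_ ?_
  · -- `(i Z_X + B_Y) / B_Y` is finite
    obtain ⟨S, hS, h⟩ := hX.map (E.i s)
    refine ⟨S, hS, fun y hy => ?_⟩
    obtain ⟨a, ha, b, hb, rfl⟩ := AddSubgroup.mem_sup.1 hy
    obtain ⟨t, ht, hat⟩ := h a ha
    refine ⟨t, ht, ?_⟩
    have h1 : a + b - t = (a - t) + b := by abel
    rw [h1]
    refine (Y.B s).add_mem ?_ hb
    obtain ⟨x, hx, hx'⟩ := hat
    rw [← hx']
    exact E.i_mem_B hx
  · intro y hy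
    refine ⟨_, ?_, rfl⟩
    rw [Cx.mem_Z, ← E.q_d, show Y.d s y = 0 from hy, map_zero]
  · rintro y₁ hy₁ y₂ hy₂ _ _ rfl rfl h
    rw [← map_sub] at h
    have hy : y₁ - y₂ ∈ Y.Z s := (Y.Z s).sub_mem hy₁ hy₂
    revert h hy
    generalize y₁ - y₂ = y
    intro h hy
    rw [AddSubgroup.mem_sup]
    rcases s with _ | s
    · rw [Cx.mem_B_zero] at h
      obtain ⟨x, rfl⟩ := E.ex _ _ h
      exact ⟨_, ⟨x, E.mem_Z_of_i hy, rfl⟩, 0, (Y.B 0).zero_mem, add_zero _⟩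
    · obtain ⟨w, hw⟩ := h
      obtain ⟨y', rfl⟩ := E.surj _ w
      rw [← E.q_d] at hw
      obtain ⟨x, hx⟩ := E.ex _ (y - Y.d s y') (by rw [map_sub, hw, sub_self])
      refine ⟨_, ⟨x, E.mem_Z_of_i ?_, rfl⟩, Y.d s y', ⟨y', rfl⟩, ?_⟩
      · rw [hx, map_sub, Y.d_d, sub_zero]
        exact hy
      · rw [hx, sub_add_cancel]

/-- exactness at `H^s(W)` -/
theorem fin_right {s : ℕ} (hY : Y.Fin s) (hX : X.Fin (s + 1)) : W.Fin s := by
  refine FinMod.of_rel (K' := X.Z (s + 1)) (H' := X.B (s + 1))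
    (fun w x => ∃ y, E.q s y = w ∧ Y.d s y = E.i (s + 1) x) hX
    ((Y.Z s).map (E.q s) ⊔ W.B s) ?_ ?_ ?_
  · obtain ⟨S, hS, h⟩ := hY.map (E.q s)
    refine ⟨S, hS, fun y hy => ?_⟩
    obtain ⟨a, ha, b, hb, rfl⟩ := AddSubgroup.mem_sup.1 hy
    obtain ⟨t, ht, hat⟩ := h a ha
    refine ⟨t, ht, ?_⟩
    have h1 : a + b - t = (a - t) + b := by abel
    rw [h1]
    refine (W.B s).add_mem ?_ hb
    obtain ⟨x, hx, hx'⟩ := hat
    rw [← hx']
    rcases s with _ | s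
    · rw [SetLike.mem_coe, Cx.mem_B_zero] at hx
      rw [Cx.mem_B_zero, hx, map_zero]
    · obtain ⟨y, rfl⟩ := hx
      exact ⟨E.q s y, (E.q_d s y).symm⟩
  · intro w hw
    obtain ⟨y, rfl⟩ := E.surj s w
    obtain ⟨x, hx⟩ := E.ex (s + 1) (Y.d s y) (by rw [E.q_d]; exact hw)
    exact ⟨x, E.mem_Z_of_i (by rw [hx, Y.d_d]), y, rfl, hx.symm⟩
  · rintro w₁ - w₂ - x₁ x₂ ⟨y₁, rfl, h₁⟩ ⟨y₂, rfl, h₂⟩ ⟨x, hx⟩
    rw [AddSubgroup.mem_sup]
    refine ⟨_, ⟨y₁ - y₂ - E.i s x, ?_, rfl⟩, 0, (W.B s).zero_mem, ?_⟩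
    · change Y.d s (y₁ - y₂ - E.i s x) = 0
      rw [map_sub, map_sub, h₁, h₂, ← map_sub, ← hx, E.i_d, sub_self]
    · rw [map_sub, map_sub, E.q_i, sub_zero, add_zero]

/-- exactness at `H^{s+1}(X)` -/
theorem fin_left {s : ℕ} (hW : W.Fin s) (hY : Y.Fin (s + 1)) : X.Fin (s + 1) := by
  refine FinMod.of_rel (K' := Y.Z (s + 1)) (H' := Y.B (s + 1)) (fun x y => E.i (s + 1) x = y) hY
    ((X.Z (s + 1)) ⊓ (Y.B (s + 1)).comap (E.i (s + 1))) ?_ ?_ ?_
  · refine FinMod.of_rel (K' := W.Z s) (H' := W.B s)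
      (fun x w => ∃ y, E.q s y = w ∧ Y.d s y = E.i (s + 1) x) hW (X.B (s + 1)) (FinMod.refl _)
      ?_ ?_
    · rintro x ⟨-, y, hy⟩
      refine ⟨E.q s y, ?_, y, rfl, hy⟩
      rw [Cx.mem_Z, ← E.q_d, hy, E.q_i]
    · rintro x₁ - x₂ - _ _ ⟨y₁, rfl, h₁⟩ ⟨y₂, rfl, h₂⟩ h
      rw [← map_sub] at h
      rcases s with _ | s
      · rw [Cx.mem_B_zero] at h
        obtain ⟨x, hx⟩ := E.ex _ _ h
        refine ⟨x, E.inj _ ?_⟩
        rw [E.i_d, hx, map_sub, h₁, h₂, map_sub]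
      · obtain ⟨w, hw⟩ := h
        obtain ⟨y, rfl⟩ := E.surj _ w
        rw [← E.q_d] at hw
        obtain ⟨x, hx⟩ := E.ex _ (y₁ - y₂ - Y.d s y) (by rw [map_sub, hw, sub_self])
        refine ⟨x, E.inj _ ?_⟩
        rw [E.i_d, hx, map_sub, map_sub, h₁, h₂, Y.d_d, sub_zero, map_sub]
  · intro x hx
    refine ⟨_, ?_, rfl⟩
    rw [Cx.mem_Z, ← E.i_d, show X.d (s + 1) x = 0 from hx, map_zero]
  · rintro x₁ h₁ x₂ h₂ _ _ rfl rfl h
    refine AddSubgroup.mem_inf.2 ⟨(X.Z (s + 1)).sub_mem h₁ h₂, AddSubgroup.mem_comap.2 ?_⟩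
    rw [map_sub]
    exact h

/-- injectivity of `H^0(X) → H^0(Y)` -/
theorem fin_left_zero (hY : Y.Fin 0) : X.Fin 0 := by
  refine FinMod.of_rel (K' := Y.Z 0) (H' := Y.B 0) (fun x y => E.i 0 x = y) hY
    (X.B 0) (FinMod.refl _) ?_ ?_
  · intro x hx
    refine ⟨_, ?_, rfl⟩
    rw [Cx.mem_Z, ← E.i_d, show X.d 0 x = 0 from hx, map_zero]
  · rintro x₁ h₁ x₂ h₂ _ _ rfl rfl h
    rw [Cx.mem_B_zero, ← map_sub] at h
    rw [Cx.mem_B_zero]
    exact E.inj 0 (by rw [h, map_zero])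

/-- all the cohomology groups -/
theorem fin_all_left (hW : ∀ s, W.Fin s) (hY : ∀ s, Y.Fin s) (s : ℕ) : X.Fin s := by
  rcases s with _ | s
  · exact E.fin_left_zero (hY 0)
  · exact E.fin_left (hW s) (hY _)

end ShortEx

end Vale.Agent.P261
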