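import Vale.Agent.P261.NNFacts

/-!
# P261: the window argument for the towers `towerN p h w`
-/

set_option linter.unusedSectionVars false

namespace Vale.Agent.P261

open Vale.Agent.P217 Vale.Agent.P251.F Vale.Agent.P251.S LawRing

/-- Isomorphic towers. -/
theorem fin_lim_congr {X Y : TowerCx.{0}} (f : ∀ s j, X.C s j ≃+ Y.C s j)
    (hd : ∀ s j x, f (s + 1) j (X.d s j x) = Y.d s j (f s j x))
    (hr : ∀ s j x, f s j (X.r s j x) = Y.r s j (f s (j + 1) x)) {s : ℕ}
    (h : (limCx X).Fin s) : (limCx Y).Fin s := by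
  let e : ∀ s, (limCx X).C s ≃+ (limCx Y).C s := fun s =>
    { toFun := fun x => ⟨fun j => f s j (x.1 j), fun j => by rw [← hr, x.2 j]⟩
      invFun := fun y => ⟨fun j => (f s j).symm (y.1 j), fun j => by
        apply (f s j).injective
        rw [hr, (f s (j + 1)).apply_symm_apply, (f s j).apply_symm_apply, y.2 j]⟩
      left_inv := fun x => Subtype.ext (funext fun j => (f s j).symm_apply_apply _)
      right_inv := fun y => Subtype.ext (funext fun j => (f s j).apply_symm_apply _)
      map_add' := fun x y => Subtype.ext (funext fun j => map_add (f s j) _ _) }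
  exact h.of_equiv e fun s x => Subtype.ext (funext fun j => hd s j _)

theorem fin_lim_congr_symm {X Y : TowerCx.{0}} (f : ∀ s j, X.C s j ≃+ Y.C s j)
    (hd : ∀ s j x, f (s + 1) j (X.d s j x) = Y.d s j (f s j x))
    (hr : ∀ s j x, f s j (X.r s j x) = Y.r s j (f s (j + 1) x)) {s : ℕ}
    (h : (limCx Y).Fin s) : (limCx X).Fin s := by
  refine fin_lim_congr (fun s j => (f s j).symm) ?_ ?_ h
  · intro s j x
    obtain ⟨x, rfl⟩ := (f s j).surjective x
    rw [← hd, AddEquiv.symm_apply_apply, AddEquiv.symm_apply_apply]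
  · intro s j x
    obtain ⟨x, rfl⟩ := (f s (j + 1)).surjective x
    rw [← hr, AddEquiv.symm_apply_apply, AddEquiv.symm_apply_apply]

section wtEquiv

variable {N N' : Type} [CommRing N] [CommRing N'] [LawRing N] [LawRing N']

theorem Cob_mapRing_injective {φ : N →+* N'} (hi : Function.Injective φ) (n : ℕ) :
    Function.Injective (Cob.mapRing φ n) := MvPolynomial.map_injective φ hi

/-- The map on the weight `w` part induced by a bijective morphism of law rings. -/
noncomputable def wtEquiv {φ : N →+* N'} (hφ : IsLawHom φ) (hb : Function.Bijective φ) (n : ℕ)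
    (w : ℤ) : Cob.wt N n w ≃+ Cob.wt N' n w :=
  AddEquiv.ofBijective ((((Cob.mapRing φ n).toAddMonoidHom).comp
    (Cob.wt N n w).subtype).codRestrict (Cob.wt N' n w) fun x => Cob.IsWt.mapRing hφ x.2) (by
    constructor
    · intro x y hxy
      exact Subtype.ext (Cob_mapRing_injective hb.1 n (congrArg Subtype.val hxy))
    · intro y
      obtain ⟨x, hx, hxy⟩ := Cob_exists_wt hφ hb.2 y.1 y.2
      exact ⟨⟨x, hx⟩, Subtype.ext hxy⟩)

theorem wtEquiv_val {φ : N →+* N'} (hφ : IsLawHom φ) (hb : Function.Bijective φ) (n : ℕ)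
    (w : ℤ) (x : Cob.wt N n w) : (wtEquiv hφ hb n w x).1 = Cob.mapRing φ n x.1 := rfl

end wtEquiv

section

variable (p : ℕ) [hp : Fact p.Prime] (h : ℕ)

/-- the tower of law rings `NN p h (j + 1)` -/
abbrev NT (j : ℕ) : Type := NN p h (j + 1)

/-- its transition maps -/
noncomputable abbrev rT (j : ℕ) : NT p h (j + 1) →+* NT p h j := NN.red p h (Nat.le_succ (j + 1))

theorem hrT (j : ℕ) : IsLawHom (rT p h j) := isLawHom_NN_red p h _

theorem bijective_mk {N : Type} [CommRing N] [LawRing N] {k : ℕ} (hN : IK p k N = ⊥) :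
    Function.Bijective (Ideal.Quotient.mk (IK p k N)) := by
  refine ⟨?_, Ideal.Quotient.mk_surjective⟩
  rw [injective_iff_map_eq_zero]
  intro a ha
  rwa [Ideal.Quotient.eq_zero_iff_mem, hN, Ideal.mem_bot] at ha

/-- the towers modulo `v_0 = p` -/
theorem finQ_one_iff (w : ℤ) : FinQ p (NT p h) (rT p h) (hrT p h) 1 w ↔
    ∀ s, (limCx (Vale.Agent.P251.I.towerN p h w)).Fin s := by
  have hb := fun j => bijective_mk p (k := 1) (N := NT p h j) (IK_one_NN p h (j + 1))
  have hl := fun j => isLawHom_mk_QK p 1 (NT p h j)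
  have hd : ∀ (s j : ℕ) (x : (Vale.Agent.P251.I.towerN p h w).C s j),
      wtEquiv (hl j) (hb j) (s + 1) w ((Vale.Agent.P251.I.towerN p h w).d s j x) =
        (quoTow p 1 (NT p h) (rT p h) (hrT p h) w).d s j (wtEquiv (hl j) (hb j) s w x) :=
    fun s j x => Subtype.ext (Cob.mapRing_d (hl j) (show Cob.wt (NT p h j) s w from x).1)
  have hr : ∀ (s j : ℕ) (x : (Vale.Agent.P251.I.towerN p h w).C s (j + 1)),
      wtEquiv (hl j) (hb j) s w ((Vale.Agent.P251.I.towerN p h w).r s j x) =
        (quoTow p 1 (NT p h) (rT p h) (hrT p h) w).r s j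
          (wtEquiv (hl (j + 1)) (hb (j + 1)) s w x) := by
    intro s j x
    apply Subtype.ext
    change Cob.mapRing _ s (Cob.mapRing _ s (show Cob.wt (NT p h (j + 1)) s w from x).1) =
      Cob.mapRing _ s (Cob.mapRing _ s (show Cob.wt (NT p h (j + 1)) s w from x).1)
    rw [Cob.mapRing_mapRing, Cob.mapRing_mapRing]
    rfl
  constructor
  · intro H s
    exact fin_lim_congr_symm (fun s j => wtEquiv (hl j) (hb j) s w) hd hr (H s)
  · intro H s
    exact fin_lim_congr (fun s j => wtEquiv (hl j) (hb j) s w) hd hr (H s)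

/-- the base case from level `0` -/
theorem finQ_self {h : ℕ} (hh : h ≠ 0) (w : ℤ)
    (H : ∀ s, (levCx (Vale.Agent.P251.I.towerN p h w) 0).Fin s) :
    FinQ p (NT p h) (rT p h) (hrT p h) h w := by
  intro s
  apply fin_lim_of_bijective
  · intro s j
    have hl := isLawHom_QKmap p h (hrT p h j)
    have hb : Function.Bijective (QKmap p h (hrT p h j)) := by
      refine ⟨?_, QKmap_surjective p h _ (NN_red_surjective p h _)⟩
      rw [injective_iff_map_eq_zero]
      intro a ha
      obtain ⟨a, rfl⟩ := Ideal.Quotient.mk_surjective a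
      rw [QKmap_mk, Ideal.Quotient.eq_zero_iff_mem] at ha
      rw [Ideal.Quotient.eq_zero_iff_mem]
      exact inj_NN p hh (by omega) a ha
    exact (wtEquiv hl hb s w).bijective
  · have hb := bijective_mk p (k := h) (N := NT p h 0) (IK_NN_one p hh)
    have hl := isLawHom_mk_QK p h (NT p h 0)
    exact (H s).of_equiv (X := levCx (Vale.Agent.P251.I.towerN p h w) 0)
      (Y := levCx (quoTow p h (NT p h) (rT p h) (hrT p h) w) 0)
      (fun s => wtEquiv hl hb s w)
      (fun s x => Subtype.ext (Cob.mapRing_d hl (show Cob.wt (NT p h 0) s w from x).1))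

/-- **The window argument for `towerN`.** -/
theorem finN_of_window {h : ℕ} (hh : 1 ≤ h)
    (hbase : ∀ w s, (levCx (Vale.Agent.P251.I.towerN p h w) 0).Fin s) (a : ℤ)
    (hw : ∀ w, a ≤ w → w < a + winLen p h 1 → ∀ s,
      (limCx (Vale.Agent.P251.I.towerN p h w)).Fin s) (w : ℤ) (s : ℕ) :
    (limCx (Vale.Agent.P251.I.towerN p h w)).Fin s := by
  refine (finQ_one_iff p h w).1 ?_ s
  refine finQ_of_window p h (NT p h) (rT p h) (hrT p h)
    (fun j => NN_red_surjective p h _) (fun k hk _ j x hx => reg_NN p h (by omega) x hx)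
    (fun w => finQ_self p (by omega) w (hbase w)) le_rfl hh a (fun w h1 h2 => ?_) w
  exact (finQ_one_iff p h w).2 (hw w h1 h2)

end

end Vale.Agent.P261
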