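import Vale.Agent.P261.Sparse
import Vale.Agent.P261.NNWindow
import Vale.Agent.P251.S.Final4

/-!
# P261: the homotopy of `L_{K(h)}(S/p)` in the sparse range

`D : MUData T`, `C = S/p`, `F` the localization at the Koszul object of height `h`, `p` odd,
`h ^ 2 < 2 (p - 1)` and `p - 1` does not divide `h`.

* `top_zero`: `π_t (L (S/p)) = 0` unless `2 (p - 1) ∣ t + s` for some `s ≤ h ^ 2`;
* `top_fin_of`, `lim_fin_of`: `π_t (L (S/p))` is finite iff the cohomology of the limits of the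
  towers `towerN p h w` in degree `s`, `t + s = 2 w`, is finite;
* `top_window`: if `π_t (L (S/p))` is finite for all `t` in a window, then it is for all `t`.
-/

open CategoryTheory MonoidalCategory Limits Pretriangulated MonObj

set_option linter.unusedSectionVars false

universe v u

namespace Vale.Agent.P261

open Vale.Agent.P251.S Vale.Agent.P251.T Vale.Agent.P251.M Vale.Agent.P251.F Vale.Agent.P251

variable {T : Type u} [Category.{v} T] [Preadditive T] [HasZeroObject T]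
    [HasShift T ℤ] [∀ n : ℤ, (shiftFunctor T n).Additive] [Pretriangulated T] [IsTriangulated T]
    [MonoidalCategory T] [SymmetricCategory T] [TensorTriangulated T] [MonoidalClosed T]
    [HasCoproducts.{0} T] [HasProducts.{0} T] [StableCat T]

variable (D : I.MUData T) {p h : ℕ} [hp : Fact p.Prime]
  {C : T} {i : 𝟙_ T ⟶ C} {δ : C ⟶ (𝟙_ T)⟦(1 : ℤ)⟧}
  (Dk : KosData D.P (p : ℤ) h (D.vs p)) (F : LocFunctor Dk.K)

/-- the exact couple of the tower `L (J^s ⊗ C)` -/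
noncomputable abbrev cpl (U : UnitCof D.R) (C : T) {K : T} (F : LocFunctor K) : Couple.{v, v} :=
  ((U.tow (𝟙_ T)).map (tensorRight C ⋙ F.L)).couple (𝟙_ T)

/-- `D^0_t = π_t (L C)` -/
noncomputable def eD0 (U : UnitCof D.R) (C : T) {K : T} (F : LocFunctor K) (t : ℤ) :
    (cpl D U C F).D 0 t ≃+ ((𝟙_ T)⟦t⟧ ⟶ F.L.obj (𝟙_ T ⊗ C)) :=
  ((U.tow (𝟙_ T)).map (tensorRight C ⋙ F.L)).eD (𝟙_ T)
    (show t + ((0 : ℕ) : ℤ) = t by rw [Nat.cast_zero, add_zero])

section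

variable (hp2 : p ≠ 2) (hh : 1 ≤ h)
  (hC : Triangle.mk ((p : ℤ) • 𝟙 (𝟙_ T)) i δ ∈ distTriang T) (hd : ¬ (p - 1) ∣ h)

include hp2 hh hC

include hd in
/-- The `E_2`-term is sparse. -/
theorem cpl_sparse (U : UnitCof D.R) :
    (cpl D U C F).Sparse (2 * ((p : ℤ) - 1)) (h * h) :=
  UnitCof.sparse_of_model (grOut D U hp2 hh hC Dk F).model (grOut D U hp2 hh hC Dk F).odd
    fun w s hs => lim_van hp2 hh hd w s hs

include hd in
/-- Convergence. -/
theorem cpl_conv (U : UnitCof D.R) : (cpl D U C F).Conv (h * h + 1) := by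
  obtain ⟨c, hc⟩ := built_finEven_RPS D
  obtain ⟨b, hKF⟩ := Dk.built_finEven hc
  intro s hs n y
  refine (U.tow (𝟙_ T)).converge_coeff C F (U.whisker_tow_c _)
    (Dk.built_isRMul (built_isRMul_RPS D.R _)) hKF
    (fun s n hn => UnitCof.E_eq_zero_of_odd (grOut D U hp2 hh hC Dk F).odd s n
      (Int.odd_iff.2 hn)) (h * h) ?_ s hs n y
  intro s hs n b hb
  exact cpl_sparse D Dk F hp2 hh hC hd U (s + 1) n (fun h => by omega)
    ((Couple.mem_EZ _).2 hb)

include hd in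
/-- **Sparseness of the homotopy of `L (S/p)`.** -/
theorem top_zero (t : ℤ) (ht : ∀ s : ℕ, s ≤ h * h → ¬ (2 * ((p : ℤ) - 1)) ∣ t + s)
    (x : (𝟙_ T)⟦t⟧ ⟶ F.L.obj (𝟙_ T ⊗ C)) : x = 0 := by
  obtain ⟨U⟩ := exists_unitCof D.R
  obtain ⟨y, rfl⟩ := (eD0 D U C F t).surjective x
  rw [Couple.D_eq_zero_of_sparse (cpl_sparse D Dk F hp2 hh hC hd U)
    (cpl_conv D Dk F hp2 hh hC hd U) ht y, map_zero]

include hd in
/-- Finiteness of the homotopy from finiteness of the cohomology. -/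
theorem top_fin_of (t : ℤ)
    (H : ∀ (w : ℤ) (s : ℕ), t + s = 2 * w → s ≤ h * h → ((p : ℤ) - 1) ∣ w →
      (limCx (I.towerN p h w)).Fin s) :
    Finite ((𝟙_ T)⟦t⟧ ⟶ F.L.obj (𝟙_ T ⊗ C)) := by
  obtain ⟨U⟩ := exists_unitCof D.R
  have : Finite ((cpl D U C F).D 0 t) := by
    refine Couple.finite_of_fin (cpl_conv D Dk F hp2 hh hC hd U) fun s => ?_
    by_cases hs : s ≤ h * h ∧ 2 * ((p : ℤ) - 1) ∣ t + s
    · obtain ⟨a, ha⟩ := hs.2
      have hw : t + (s : ℤ) = 2 * (((p : ℤ) - 1) * a) := by rw [ha]; ring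
      exact (((grOut D U hp2 hh hC Dk F).model _).fin_iff hw).2
        (H _ s hw hs.1 (dvd_mul_right _ _))
    · exact Couple.finMod_of_le (cpl_sparse D Dk F hp2 hh hC hd U s t hs)
  exact Finite.of_equiv _ (eD0 D U C F t).toEquiv

include hd in
/-- Finiteness of the cohomology from finiteness of the homotopy, in the sparse range. -/
theorem lim_fin_of (hH : ((h * h : ℕ) : ℤ) < 2 * ((p : ℤ) - 1)) (t w : ℤ) (s : ℕ)
    (htw : t + s = 2 * w) [hf : Finite ((𝟙_ T)⟦t⟧ ⟶ F.L.obj (𝟙_ T ⊗ C))] :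
    (limCx (I.towerN p h w)).Fin s := by
  obtain ⟨U⟩ := exists_unitCof D.R
  have : Finite ((cpl D U C F).D 0 t) := Finite.of_equiv _ (eD0 D U C F t).symm.toEquiv
  exact (((grOut D U hp2 hh hC Dk F).model _).fin_iff htw).1
    (Couple.fin_of_finite (cpl_sparse D Dk F hp2 hh hC hd U)
      (cpl_conv D Dk F hp2 hh hC hd U) hH s)

include hd in
/-- **The window law for the homotopy of `L (S/p)`.** -/
theorem top_window (hH : ((h * h : ℕ) : ℤ) < 2 * ((p : ℤ) - 1)) (a : ℤ)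
    (H : ∀ t : ℤ, 2 * a - (h * h : ℕ) ≤ t → t ≤ 2 * (a + winLen p h 1) - 2 →
      Finite ((𝟙_ T)⟦t⟧ ⟶ F.L.obj (𝟙_ T ⊗ C))) (t : ℤ) :
    Finite ((𝟙_ T)⟦t⟧ ⟶ F.L.obj (𝟙_ T ⊗ C)) := by
  refine top_fin_of D Dk F hp2 hh hC hd t fun w s _ _ _ => ?_
  refine finN_of_window p hh (fun w s => H681.fin_lev hp2 (by omega) w s 0) a ?_ w s
  intro w hw1 hw2 s
  by_cases hs : s ≤ h * h ∧ ((p : ℤ) - 1) ∣ w
  · have hs' : (s : ℤ) ≤ ((h * h : ℕ) : ℤ) := by exact_mod_cast hs.1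
    have := H (2 * w - s) (by omega) (by omega)
    exact lim_fin_of D Dk F hp2 hh hC hd hH (2 * w - s) w s (by ring)
  · exact (FinMod.refl _).mono le_rfl (lim_van hp2 hh hd w s hs)

end

end Vale.Agent.P261
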