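import Vale.Agent.P261.FinMod
import Vale.Agent.P251.S.LimComplex

/-!
# P261: short exact sequences of inverse limits of towers of complexes
-/

universe u

namespace Vale.Agent.P261

open Vale.Agent.P251.S

/-- The inverse limit of a tower of complexes. -/
def limCx (T : TowerCx.{u}) : Cx.{u} where
  C s := T.lim s
  d s := AddMonoidHom.mk' (fun x => ⟨fun j => T.d s j (x.1 j), fun j => by
      rw [← T.d_r, x.2 j]⟩)
    (fun x y => Subtype.ext (funext fun j => map_add (T.d s j) (x.1 j) (y.1 j)))
  d_d s x := Subtype.ext (funext fun j => T.d_d s j (x.1 j))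

theorem limCx_d (T : TowerCx.{u}) (s : ℕ) (x : (limCx T).C s) (j : ℕ) :
    ((limCx T).d s x).1 j = T.d s j (x.1 j) := rfl

/-- The complex at a level of the tower. -/
def levCx (T : TowerCx.{u}) (j : ℕ) : Cx.{u} where
  C s := T.C s j
  d s := T.d s j
  d_d s x := T.d_d s j x

/-- A sequence of towers of complexes whose limit is a short exact sequence. -/
structure TowSeq (X Y W : TowerCx.{u}) where
  /-- the first map -/
  i : ∀ s j, X.C s j →+ Y.C s j
  /-- the second map -/
  q : ∀ s j, Y.C s j →+ W.C s j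
  i_d : ∀ s j x, i (s + 1) j (X.d s j x) = Y.d s j (i s j x)
  q_d : ∀ s j x, q (s + 1) j (Y.d s j x) = W.d s j (q s j x)
  i_r : ∀ s j x, i s j (X.r s j x) = Y.r s j (i s (j + 1) x)
  q_r : ∀ s j x, q s j (Y.r s j x) = W.r s j (q s (j + 1) x)
  inj : ∀ s j x, i s (j + 1) x = 0 → X.r s j x = 0
  surj : ∀ s j, Function.Surjective (q s j)
  q_i : ∀ s j x, q s j (i s j x) = 0
  ex : ∀ s j y, q s j y = 0 → ∃ x, i s j x = y
  rsurj : ∀ s j, Function.Surjective (X.r s j)

namespace TowSeq

variable {X Y W : TowerCx.{u}} (E : TowSeq X Y W)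

/-- the short exact sequence of the limits -/
def shortEx : ShortEx (limCx X) (limCx Y) (limCx W) where
  i s := AddMonoidHom.mk' (fun x => ⟨fun j => E.i s j (x.1 j), fun j => by
      rw [← E.i_r, x.2 j]⟩)
    (fun x y => Subtype.ext (funext fun j => map_add (E.i s j) (x.1 j) (y.1 j)))
  q s := AddMonoidHom.mk' (fun x => ⟨fun j => E.q s j (x.1 j), fun j => by
      rw [← E.q_r, x.2 j]⟩)
    (fun x y => Subtype.ext (funext fun j => map_add (E.q s j) (x.1 j) (y.1 j)))
  i_d s x := Subtype.ext (funext fun j => E.i_d s j (x.1 j))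
  q_d s x := Subtype.ext (funext fun j => E.q_d s j (x.1 j))
  inj s := by
    rw [injective_iff_map_eq_zero]
    intro x hx
    refine Subtype.ext (funext fun j => ?_)
    have h1 : E.i s (j + 1) (x.1 (j + 1)) = 0 := congrFun (congrArg Subtype.val hx) (j + 1)
    rw [← x.2 j, E.inj s j _ h1]
    rfl
  surj s := by
    intro z
    choose f hf using E.surj s
    choose g hg using E.ex s
    choose l hl using E.rsurj s
    -- one step
    have step : ∀ j (y : Y.C s j), E.q s j y = z.1 j →
        ∃ y' : Y.C s (j + 1), E.q s (j + 1) y' = z.1 (j + 1) ∧ Y.r s j y' = y := by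
      intro j y hy
      have h1 : E.q s j (Y.r s j (f (j + 1) (z.1 (j + 1))) - y) = 0 := by
        rw [map_sub, E.q_r, hf, z.2 j, hy, sub_self]
      refine ⟨f (j + 1) (z.1 (j + 1)) - E.i s (j + 1) (l j (g j _ h1)), ?_, ?_⟩
      · rw [map_sub, hf, E.q_i, sub_zero]
      · rw [map_sub, ← E.i_r, hl, hg, sub_sub_cancel]
    choose! F hF1 hF2 using step
    let y : ∀ j, Y.C s j := fun j => Nat.rec (motive := fun j => Y.C s j) (f 0 (z.1 0))
      (fun j y => F j y) j
    have hy : ∀ j, E.q s j (y j) = z.1 j := by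
      intro j
      induction j with
      | zero => exact hf 0 _
      | succ j ih => exact hF1 j (y j) ih
    exact ⟨⟨y, fun j => hF2 j (y j) (hy j)⟩, Subtype.ext (funext hy)⟩
  q_i s x := Subtype.ext (funext fun j => E.q_i s j (x.1 j))
  ex s y hy := by
    have h0 : ∀ j, E.q s j (y.1 j) = 0 := fun j => congrFun (congrArg Subtype.val hy) j
    choose x hx using fun j => E.ex s j (y.1 j) (h0 j)
    refine ⟨⟨fun j => X.r s j (x (j + 1)), fun j => ?_⟩, Subtype.ext (funext fun j => ?_)⟩
    · have h1 : E.i s (j + 1) (X.r s (j + 1) (x (j + 2)) - x (j + 1)) = 0 := by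
        rw [map_sub, E.i_r, hx, hx, y.2 (j + 1), sub_self]
      have h2 := E.inj s j _ h1
      rwa [map_sub, sub_eq_zero] at h2
    · change E.i s j (X.r s j (x (j + 1))) = y.1 j
      rw [E.i_r, hx, y.2 j]

end TowSeq

/-- Isomorphic complexes. -/
theorem Cx.Fin.of_equiv {X Y : Cx.{u}} (e : ∀ s, X.C s ≃+ Y.C s)
    (he : ∀ s x, e (s + 1) (X.d s x) = Y.d s (e s x)) {s : ℕ} (h : X.Fin s) : Y.Fin s := by
  refine (h.map (e s).toAddMonoidHom).mono ?_ ?_
  · intro y hy
    refine ⟨(e s).symm y, ?_, (e s).apply_symm_apply y⟩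
    apply (e (s + 1)).injective
    rw [he, (e s).apply_symm_apply, map_zero]
    exact hy
  · rintro _ ⟨x, hx, rfl⟩
    rcases s with _ | s
    · rw [SetLike.mem_coe, Cx.mem_B_zero] at hx
      rw [Cx.mem_B_zero, hx]
      exact map_zero _
    · obtain ⟨y, rfl⟩ := hx
      exact ⟨e s y, (he s y).symm⟩

/-- A tower with bijective transition maps. -/
theorem fin_lim_of_bijective (T : TowerCx.{u}) (hT : ∀ s j, Function.Bijective (T.r s j))
    {s : ℕ} (h : (levCx T 0).Fin s) : (limCx T).Fin s := by
  have hb : ∀ s, Function.Bijective (fun x : T.lim s => x.1 0) := by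
    intro s
    constructor
    · intro x y hxy
      refine Subtype.ext (funext fun j => ?_)
      induction j with
      | zero => exact hxy
      | succ j ih =>
        apply (hT s j).1
        rw [x.2 j, y.2 j, ih]
    · intro a
      choose f hf using fun j => (hT s j).2
      let x : ∀ j, T.C s j := fun j => Nat.rec (motive := fun j => T.C s j) a
        (fun j y => f j y) j
      exact ⟨⟨x, fun j => hf j (x j)⟩, rfl⟩
  let e : ∀ s, (limCx T).C s ≃+ (levCx T 0).C s := fun s =>
    AddEquiv.ofBijective (AddMonoidHom.mk' (fun x : T.lim s => x.1 0) fun _ _ => rfl) (hb s)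
  refine Cx.Fin.of_equiv (X := levCx T 0) (Y := limCx T) (fun s => (e s).symm) ?_ h
  intro s x
  obtain ⟨x, rfl⟩ := (e s).surjective x
  rw [(e s).symm_apply_apply]
  apply (e (s + 1)).injective
  rw [(e (s + 1)).apply_symm_apply]
  rfl

end Vale.Agent.P261
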