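import Vale.Agent.P261.LimSeq
import Mathlib.Order.KonigLemma
import Mathlib.GroupTheory.QuotientGroup.Defs

/-!
# P261: vanishing of the cohomology of the limit of a tower of complexes, finite case
-/

universe u

namespace Vale.Agent.P261

open Vale.Agent.P251.S

variable (T : TowerCx.{u})

theorem FinMod.finite_image_mk {G : Type*} [AddCommGroup G] {K H : AddSubgroup G}
    (h : FinMod K H) : ((fun x : G => (QuotientAddGroup.mk x : G ⧸ H)) '' (K : Set G)).Finite := by
  obtain ⟨S, hS, h⟩ := h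
  refine (hS.image fun x : G => (QuotientAddGroup.mk x : G ⧸ H)).subset ?_
  rintro _ ⟨x, hx, rfl⟩
  obtain ⟨s, hs, hxs⟩ := h x hx
  refine ⟨s, hs, ?_⟩
  rw [QuotientAddGroup.eq, neg_add_eq_sub]
  exact hxs

/-- coboundaries at the level `j` -/
def TB : ∀ (s j : ℕ), AddSubgroup (T.C s j)
  | 0, _ => ⊥
  | s + 1, j => (T.d s j).range

theorem res_mem_TB (s : ℕ) {a b : ℕ} (h : a ≤ b) (x : T.C s b) (hx : x ∈ TB T s b) :
    T.res s h x ∈ TB T s a := by
  rcases s with _ | s
  · have h1 : x = 0 := hx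
    rw [h1, map_zero]
    exact AddSubgroup.zero_mem _
  · obtain ⟨y, rfl⟩ := hx
    exact ⟨T.res s h y, by rw [← T.d_res]⟩

/-- the map on the quotients by the coboundaries -/
noncomputable def resQ (s : ℕ) {a b : ℕ} (h : a ≤ b) :
    (T.C s b ⧸ TB T s b) →+ (T.C s a ⧸ TB T s a) :=
  QuotientAddGroup.map (TB T s b) (TB T s a) (T.res s h)
    fun x hx => res_mem_TB T s h x hx

theorem resQ_mk (s : ℕ) {a b : ℕ} (h : a ≤ b) (x : T.C s b) :
    resQ T s h (QuotientAddGroup.mk x) = QuotientAddGroup.mk (T.res s h x) := rfl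

theorem lim_cobdy_of_fin (hr : ∀ s j, Function.Surjective (T.r s j)) (s : ℕ)
    (hfin : ∀ j, FinMod (T.d s j).ker (TB T s j))
    (x : ∀ j, T.C (s + 1) j) (hx : x ∈ T.lim (s + 1))
    (hprim : ∀ j, ∃ y : T.C s j, T.d s j y = x j) :
    ∃ y ∈ T.lim s, ∀ j, T.d s j (y j) = x j := by
  -- the classes of primitives
  let α : ℕ → Type u := fun j =>
    {c : T.C s j ⧸ TB T s j // ∃ y : T.C s j, T.d s j y = x j ∧ QuotientAddGroup.mk y = c}
  have hne : ∀ j, Nonempty (α j) := fun j => by
    obtain ⟨y, hy⟩ := hprim j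
    exact ⟨⟨_, y, hy, rfl⟩⟩
  have hαfin : ∀ j, Finite (α j) := by
    intro j
    obtain ⟨y₀, hy₀⟩ := hprim j
    have h1 := (hfin j).finite_image_mk
    have h2 : Finite {c : T.C s j ⧸ TB T s j //
        c ∈ (fun x : T.C s j => (QuotientAddGroup.mk x : T.C s j ⧸ TB T s j)) ''
          ((T.d s j).ker : Set (T.C s j))} := h1
    refine Finite.of_injective (β := {c : T.C s j ⧸ TB T s j //
        c ∈ (fun x : T.C s j => (QuotientAddGroup.mk x : T.C s j ⧸ TB T s j)) ''
          ((T.d s j).ker : Set (T.C s j))}) (fun c => ⟨c.1 - QuotientAddGroup.mk y₀, ?_⟩) ?_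
    · obtain ⟨y, hy, hyc⟩ := c.2
      refine ⟨y - y₀, ?_, ?_⟩
      · change T.d s j (y - y₀) = 0
        rw [map_sub, hy, hy₀, sub_self]
      · rw [← hyc]
        rfl
    · intro c c' h
      have h3 := congrArg Subtype.val h
      exact Subtype.ext (sub_left_injective h3)
  have hd : ∀ {a b : ℕ} (h : a ≤ b) (y : T.C s b), T.d s b y = x b →
      T.d s a (T.res s h y) = x a := by
    intro a b h y hy
    rw [T.d_res, hy, T.res_eq_of_mem_lim hx]
  have h0 := hαfin 0
  obtain ⟨f, hf⟩ := exists_seq_forall_proj_of_forall_finite (α := α)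
    (fun {a b} h c => ⟨resQ T s h c.1, by
      obtain ⟨y, hy, hyc⟩ := c.2
      exact ⟨T.res s h y, hd h y hy, by rw [← hyc, resQ_mk]⟩⟩)
    (by
      intro a c
      obtain ⟨_, y, hy, rfl⟩ := c
      apply Subtype.ext
      change resQ T s _ (QuotientAddGroup.mk y) = QuotientAddGroup.mk y
      rw [resQ_mk, T.res_self])
    (by
      intro a b c h h' z
      obtain ⟨_, y, hy, rfl⟩ := z
      apply Subtype.ext
      change resQ T s _ (resQ T s _ (QuotientAddGroup.mk y)) =
        resQ T s _ (QuotientAddGroup.mk y)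
      rw [resQ_mk, resQ_mk, resQ_mk, T.res_res])
    (fun j a => by
      have := hαfin (j + 1)
      exact Set.toFinite _)
  choose y hy hyf using fun j => (f j).2
  have hcl : ∀ j, T.r s j (y (j + 1)) - y j ∈ TB T s j := by
    intro j
    have h1 := congrArg Subtype.val (hf (Nat.le_succ j))
    change resQ T s (Nat.le_succ j) (f (j + 1)).1 = (f j).1 at h1
    rw [← hyf, ← hyf, resQ_mk, QuotientAddGroup.eq, neg_add_eq_sub] at h1
    have h2 : T.res s (Nat.le_succ j) (y (j + 1)) = T.r s j (y (j + 1)) := by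
      rw [T.res_succ s (le_refl j), T.res_self]
    rw [h2] at h1
    have h3 := AddSubgroup.neg_mem _ h1
    rwa [neg_sub] at h3
  rcases s with _ | s
  · refine ⟨y, fun j => ?_, hy⟩
    have h1 := hcl j
    rw [TB, AddSubgroup.mem_bot, sub_eq_zero] at h1
    exact h1
  · choose w hw using hcl
    have hv : ∃ v : ∀ j, T.C s j, ∀ j, T.r s j (v (j + 1)) = v j + w j := by
      choose g hg using hr s
      let v : ∀ j, T.C s j := fun j => Nat.rec (motive := fun j => T.C s j) 0
        (fun j vj => g j (vj + w j)) j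
      exact ⟨v, fun j => hg j _⟩
    obtain ⟨v, hv⟩ := hv
    refine ⟨fun j => y j - T.d s j (v j), fun j => ?_, fun j => ?_⟩
    · have : T.r (s + 1) j (T.d s (j + 1) (v (j + 1))) = T.d s j (v j) + T.d s j (w j) := by
        rw [← T.d_r, hv, map_add]
      simp only [map_sub, this, hw]
      abel
    · rw [map_sub, T.d_d, sub_zero, hy]

/-- `lim^1 = 0` for finite cohomology groups. -/
theorem lim_le_of_fin (hr : ∀ s j, Function.Surjective (T.r s j)) (s : ℕ)
    (hfin : ∀ j, (levCx T j).Fin s)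
    (hv : ∀ j, (levCx T j).Z (s + 1) ≤ (levCx T j).B (s + 1)) :
    (limCx T).Z (s + 1) ≤ (limCx T).B (s + 1) := by
  rintro ⟨x, hx⟩ hdx
  have hdx' : ∀ j, T.d (s + 1) j (x j) = 0 := fun j => congrFun (congrArg Subtype.val hdx) j
  obtain ⟨y, hy, hyx⟩ := lim_cobdy_of_fin T hr s (fun j => by
    rcases s with _ | s
    · exact hfin j
    · exact hfin j) x hx (fun j => hv j (hdx' j))
  exact ⟨⟨y, hy⟩, Subtype.ext (funext hyx)⟩

/-- the case of degree `0` -/
theorem lim_le_zero (hv : ∀ j, (levCx T j).Z 0 ≤ (levCx T j).B 0) :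
    (limCx T).Z 0 ≤ (limCx T).B 0 := by
  intro x hdx
  have hdx' : ∀ j, T.d 0 j (x.1 j) = 0 := fun j => congrFun (congrArg Subtype.val hdx) j
  refine Cx.mem_B_zero _ |>.2 ?_
  refine Subtype.ext (funext fun j => ?_)
  exact hv j (hdx' j)

end Vale.Agent.P261
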