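import Vale.Agent.P261.Window
import Vale.Agent.P251.F.LazReg
import Vale.Agent.P251.F.Vanish

/-!
# P261: the tower `v_h⁻¹ Laz/(p, I_h^j)`: regularity of `v_k`, `1 ≤ k < h`, and the base case
-/

set_option linter.unusedSectionVars false

namespace Vale.Agent.P261

open Vale.Agent.P217 Vale.Agent.P251.F Vale.Agent.P251.S LawRing

/-! ### monomial ideals -/

section mono

variable {σ R : Type*} [CommRing R]

theorem killX_mem_span_pow (S S' : Set σ) (j : ℕ) {f : MvPolynomial σ R}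
    (hf : f ∈ Ideal.span (MvPolynomial.X '' S' : Set (MvPolynomial σ R)) ^ j) :
    killX S f ∈ Ideal.span (MvPolynomial.X '' S' : Set (MvPolynomial σ R)) ^ j := by
  have h1 := Ideal.mem_map_of_mem (killX S : MvPolynomial σ R →ₐ[R] MvPolynomial σ R) hf
  rw [Ideal.map_pow] at h1
  refine Ideal.pow_right_mono ?_ j h1
  rw [Ideal.map_span, Ideal.span_le]
  rintro _ ⟨_, ⟨s, hs, rfl⟩, rfl⟩
  by_cases h : s ∈ S
  · rw [killX_X_of_mem S h]
    exact Ideal.zero_mem _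
  · rw [killX_X_of_notMem S h]
    exact Ideal.subset_span ⟨s, hs, rfl⟩

/-- A variable in `S'` outside `S` is a nonzerodivisor up to a shift modulo
`(X_s, s ∈ S) + (X_s, s ∈ S')^j`. -/
theorem mem_sup_of_X_mul (S S' : Set σ) {i : σ} (hi : i ∉ S) {j : ℕ} {f : MvPolynomial σ R}
    (h : MvPolynomial.X i * f ∈ Ideal.span (MvPolynomial.X '' S : Set (MvPolynomial σ R)) ⊔
      Ideal.span (MvPolynomial.X '' S' : Set (MvPolynomial σ R)) ^ (j + 1)) :
    f ∈ Ideal.span (MvPolynomial.X '' S : Set (MvPolynomial σ R)) ⊔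
      Ideal.span (MvPolynomial.X '' S' : Set (MvPolynomial σ R)) ^ j := by
  classical
  obtain ⟨a, ha, b, hb, hab⟩ := Submodule.mem_sup.1 h
  have h1 : killX S a = 0 := by
    rw [← RingHom.mem_ker (f := (killX S : MvPolynomial σ R →ₐ[R] MvPolynomial σ R)),
      ker_killX]
    exact ha
  have h2 : MvPolynomial.X i * killX S f = killX S b := by
    have := congrArg (killX S) hab
    rw [map_add, h1, zero_add, map_mul, killX_X_of_notMem S hi] at this
    exact this.symm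
  have h3 := killX_mem_span_pow S S' (j + 1) hb
  rw [← h2, span_X_pow_eq] at h3
  have h4 : killX S f ∈ Ideal.span (MvPolynomial.X '' S' : Set (MvPolynomial σ R)) ^ j := by
    rw [span_X_pow_eq]
    intro m hm
    have h5 := h3 (m + Finsupp.single i 1) (by
      rw [degS_add, degS_single]
      split_ifs <;> omega)
    rwa [mul_comm, MvPolynomial.coeff_mul_X] at h5
  rw [Submodule.mem_sup]
  exact ⟨f - killX S f, sub_killX_mem S f, killX S f, h4, sub_add_cancel _ _⟩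

end mono

section Laz

variable (p : ℕ) [hp : Fact p.Prime]

theorem sup_eq_comap {k : ℕ} (hk : k ≠ 0) (h j : ℕ) :
    Laz.I p k ⊔ Laz.IJ p h j = (YI p k ⊔ YI p h ^ j).comap (toY p) := by
  rw [← map_IJ_toY, ← map_I_toY, ← Ideal.map_sup, Ideal.comap_map_of_surjective _ (toY_surjective p),
    ← RingHom.ker_eq_comap_bot, ker_toY, left_eq_sup]
  exact le_sup_of_le_right le_sup_left

/-- `v_k`, `1 ≤ k`, is a nonzerodivisor up to a shift modulo `I_k + (p) + I_h^j`. -/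
theorem mem_sup_of_v_mul {k : ℕ} (hk : k ≠ 0) (h j : ℕ) {a : Laz}
    (ha : Laz.v p k * a ∈ Laz.I p k ⊔ Laz.IJ p h (j + 1)) : a ∈ Laz.I p k ⊔ Laz.IJ p h j := by
  rw [sup_eq_comap p hk, Ideal.mem_comap] at ha ⊢
  rw [map_mul, toY_v p hk] at ha
  exact mem_sup_of_X_mul _ _ (notMem_idx p hk le_rfl) ha

variable (h : ℕ)

theorem IK_QN (k j : ℕ) : IK p k (QN p h j) = (Laz.I p k).map (Ideal.Quotient.mk (Laz.IJ p h j)) := by
  rw [IK, Laz.I, ← Ih_map]
  rfl

theorem mk_mem_IK_QN {k j : ℕ} {a : Laz} :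
    Ideal.Quotient.mk (Laz.IJ p h j) a ∈ IK p k (QN p h j) ↔ a ∈ Laz.I p k ⊔ Laz.IJ p h j := by
  rw [IK_QN, ← Ideal.mem_comap, Ideal.comap_map_of_surjective _ Ideal.Quotient.mk_surjective,
    ← RingHom.ker_eq_comap_bot, Ideal.mk_ker]

theorem vv_QN (k j : ℕ) : vv p k (LawRing.law (N := QN p h j)) =
    Ideal.Quotient.mk (Laz.IJ p h j) (Laz.v p k) := by
  rw [Laz.v, ← vv_map]
  rfl

theorem vv_NN (k j : ℕ) : vv p k (LawRing.law (N := NN p h j)) =
    algebraMap (QN p h j) (NN p h j) (vv p k (LawRing.law (N := QN p h j))) := by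
  rw [← vv_map, (isLawHom_algebraMap p h j).law]

theorem QN_red_mk {j j' : ℕ} (hj : j ≤ j') (a : Laz) :
    QN.red p h hj (Ideal.Quotient.mk _ a) = Ideal.Quotient.mk _ a := rfl

theorem QN_red_surjective {j j' : ℕ} (hj : j ≤ j') : Function.Surjective (QN.red p h hj) := by
  intro a
  obtain ⟨a, rfl⟩ := Ideal.Quotient.mk_surjective a
  exact ⟨Ideal.Quotient.mk _ a, rfl⟩

theorem NN_red_algebraMap {j j' : ℕ} (hj : j ≤ j') (a : QN p h j') :
    NN.red p h hj (algebraMap _ _ a) = algebraMap _ _ (QN.red p h hj a) := by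
  rw [NN.red, IsLocalization.Away.lift_eq]
  rfl

/-- the unit `v_h` of `NN p h j` -/
theorem isUnit_vh (j : ℕ) : IsUnit (vv p h (LawRing.law (N := NN p h j))) := by
  rw [vv_NN, vv_QN]
  exact IsLocalization.Away.algebraMap_isUnit _

/-- fractions -/
theorem NN_exists (j : ℕ) (x : NN p h j) : ∃ (m : ℕ) (a : QN p h j),
    vv p h (LawRing.law (N := NN p h j)) ^ m * x = algebraMap _ _ a := by
  obtain ⟨m, a, hx⟩ := IsLocalization.Away.surj
    (Ideal.Quotient.mk (Laz.IJ p h j) (Laz.v p h)) x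
  refine ⟨m, a, ?_⟩
  rw [vv_NN, vv_QN, mul_comm]
  exact hx

theorem NN_red_surjective {j j' : ℕ} (hj : j ≤ j') : Function.Surjective (NN.red p h hj) := by
  intro x
  obtain ⟨m, a, hx⟩ := NN_exists p h j x
  obtain ⟨b, rfl⟩ := QN_red_surjective p h hj a
  obtain ⟨u, hu⟩ := isUnit_vh p h j'
  refine ⟨((u⁻¹ : (NN p h j')ˣ) : NN p h j') ^ m * algebraMap _ _ b, ?_⟩
  apply ((isUnit_vh p h j).pow m).mul_left_cancel
  rw [hx, map_mul, map_pow, NN_red_algebraMap]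
  have h1 : vv p h (LawRing.law (N := NN p h j)) = NN.red p h hj u := by
    rw [hu, ← vv_map, (isLawHom_NN_red p h hj).law]
  rw [← mul_assoc, ← mul_pow, h1, ← map_mul, Units.mul_inv, map_one, one_pow, one_mul]

theorem IK_NN (k j : ℕ) : IK p k (NN p h j) =
    (IK p k (QN p h j)).map (algebraMap (QN p h j) (NN p h j)) :=
  (map_IK p k (isLawHom_algebraMap p h j)).symm

theorem mem_IK_NN_algebraMap {k j : ℕ} {a : QN p h j} :
    algebraMap (QN p h j) (NN p h j) a ∈ IK p k (NN p h j) ↔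
      ∃ m : ℕ, vv p h (LawRing.law (N := QN p h j)) ^ m * a ∈ IK p k (QN p h j) := by
  rw [IK_NN, IsLocalization.algebraMap_mem_map_algebraMap_iff
    (Submonoid.powers (Ideal.Quotient.mk (Laz.IJ p h j) (Laz.v p h)))]
  constructor
  · rintro ⟨_, ⟨m, rfl⟩, hm⟩
    exact ⟨m, by rw [vv_QN]; exact hm⟩
  · rintro ⟨m, hm⟩
    exact ⟨_, ⟨m, rfl⟩, by rw [vv_QN] at hm; exact hm⟩

theorem mem_IK_NN_iff {k j m : ℕ} {x : NN p h j} :
    vv p h (LawRing.law (N := NN p h j)) ^ m * x ∈ IK p k (NN p h j) ↔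
      x ∈ IK p k (NN p h j) := by
  constructor
  · intro hx
    exact (Ideal.unit_mul_mem_iff_mem _ ((isUnit_vh p h j).pow m)).1 hx
  · exact fun hx => Ideal.mul_mem_left _ _ hx

/-- **Regularity.** -/
theorem reg_NN {k : ℕ} (hk : k ≠ 0) {j : ℕ} (x : NN p h (j + 1))
    (hx : vv p k (LawRing.law (N := NN p h (j + 1))) * x ∈ IK p k (NN p h (j + 1))) :
    NN.red p h (Nat.le_succ j) x ∈ IK p k (NN p h j) := by
  obtain ⟨m, a, ha⟩ := NN_exists p h (j + 1) x
  have h1 : algebraMap _ _ (vv p k (LawRing.law (N := QN p h (j + 1))) * a) ∈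
      IK p k (NN p h (j + 1)) := by
    rw [map_mul, ← vv_NN, ← ha, mul_left_comm]
    exact Ideal.mul_mem_left _ _ hx
  rw [mem_IK_NN_algebraMap] at h1
  obtain ⟨l, hl⟩ := h1
  obtain ⟨a, rfl⟩ := Ideal.Quotient.mk_surjective a
  rw [vv_QN, vv_QN, ← map_pow, ← map_mul, ← map_mul, mk_mem_IK_QN, mul_left_comm] at hl
  have h2 := mem_sup_of_v_mul p hk h j hl
  rw [← mk_mem_IK_QN, map_mul, map_pow, ← vv_QN] at h2
  rw [← mem_IK_NN_iff p h (m := m)]
  have h3 := congrArg (NN.red p h (Nat.le_succ j)) ha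
  rw [map_mul, map_pow, ← vv_map, (isLawHom_NN_red p h _).law, NN_red_algebraMap, QN_red_mk] at h3
  rw [h3, mem_IK_NN_algebraMap]
  exact ⟨l, h2⟩

/-- Modulo `I_h` the transition maps are injective. -/
theorem inj_NN {h : ℕ} (hh : h ≠ 0) {j : ℕ} (hj : 1 ≤ j) (x : NN p h (j + 1))
    (hx : NN.red p h (Nat.le_succ j) x ∈ IK p h (NN p h j)) : x ∈ IK p h (NN p h (j + 1)) := by
  obtain ⟨m, a, ha⟩ := NN_exists p h (j + 1) x
  rw [← mem_IK_NN_iff p h (m := m), ha, mem_IK_NN_algebraMap]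
  have h3 := congrArg (NN.red p h (Nat.le_succ j)) ha
  rw [map_mul, map_pow, ← vv_map, (isLawHom_NN_red p h _).law, NN_red_algebraMap] at h3
  rw [← mem_IK_NN_iff p h (m := m), h3, mem_IK_NN_algebraMap] at hx
  obtain ⟨l, hl⟩ := hx
  refine ⟨l, ?_⟩
  obtain ⟨a, rfl⟩ := Ideal.Quotient.mk_surjective a
  rw [QN_red_mk, vv_QN, ← map_pow, ← map_mul, mk_mem_IK_QN] at hl
  rw [vv_QN, ← map_pow, ← map_mul, mk_mem_IK_QN]
  have h4 : ∀ i, 1 ≤ i → Laz.I p h ⊔ Laz.IJ p h i = Laz.I p h := by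
    intro i hi
    rw [sup_eq_left, ← IJ_one_eq p hh]
    exact Laz.IJ_anti p h hi
  rw [h4 _ hj] at hl
  rw [h4 _ (by omega)]
  exact hl

theorem IK_one_NN (j : ℕ) : IK p 1 (NN p h j) = ⊥ := by
  rw [IK, Ih, Ideal.span_eq_bot]
  rintro _ ⟨i, hi, rfl⟩
  obtain rfl : i = 0 := by omega
  rw [vv_zero, NN.p_eq_zero]

theorem IK_NN_one {h : ℕ} (hh : h ≠ 0) : IK p h (NN p h 1) = ⊥ := by
  rw [IK_NN, IK_QN, ← IJ_one_eq p hh, Ideal.map_quotient_self, Ideal.map_bot]

end Laz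

end Vale.Agent.P261
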