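import Vale.Agent.P261.Couple
import Vale.Agent.P261.LimSeq
import Vale.Agent.P251.S.TowerN

/-!
# P261: the `E_2`-term of the tower of a monoid and the cohomology of the limit complex
-/

open CategoryTheory Limits Pretriangulated MonoidalCategory MonObj

set_option linter.unusedSectionVars false

universe v u v' u' w

namespace Vale.Agent.P251.S

open Vale.Agent.P251.T Vale.Agent.P261

variable {T : Type u} [Category.{v} T] [Preadditive T] [HasZeroObject T] [HasShift T ℤ]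
  [∀ n : ℤ, (shiftFunctor T n).Additive] [Pretriangulated T] [MonoidalCategory T]
  [SymmetricCategory T] [TensorTriangulated T]
  {D : Type u'} [Category.{v'} D] [Preadditive D] [HasZeroObject D] [HasShift D ℤ]
  [∀ n : ℤ, (shiftFunctor D n).Additive] [Pretriangulated D]

namespace UnitCof

variable {R : T} [MonObj R] {U : UnitCof R} {Y : T} {F : T ⥤ D} [F.CommShift ℤ]
  [F.IsTriangulated] {P : D}

namespace CobModel

variable {w : ℤ} {Tw : TowerCx.{w}} (Φ : U.CobModel Y F P w Tw)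

/-- the identification with the limit complex -/
def ψ (s : ℕ) : (P⟦2 * w⟧ ⟶ F.obj (U.cobar.Q (s + 1) Y)) ≃+ (limCx Tw).C s := Φ.φ s

include Φ

lemma d_ψ (s : ℕ) (x : P⟦2 * w⟧ ⟶ F.obj (U.cobar.Q (s + 1) Y)) :
    (limCx Tw).d s (Φ.ψ s x) = Φ.ψ (s + 1) (x ≫ F.map (U.cobar.d (s + 1) Y)) :=
  Subtype.ext (funext fun j => (Φ.φ_d s x j).symm)

lemma mem_Z_iff (s : ℕ) (x : P⟦2 * w⟧ ⟶ F.obj (U.cobar.Q (s + 1) Y)) :
    Φ.ψ s x ∈ (limCx Tw).Z s ↔ x ≫ F.map (U.cobar.d (s + 1) Y) = 0 := by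
  rw [Cx.mem_Z, d_ψ]
  exact AddEquiv.map_eq_zero_iff _

/-- the class of a coboundary of the limit complex -/
lemma qE_mem_EB {s : ℕ} {n : ℤ} (h : n + (s : ℤ) = 2 * w)
    (c : P⟦2 * w⟧ ⟶ F.obj (U.cobar.Q (s + 1) Y)) (hB : Φ.ψ s c ∈ (limCx Tw).B s) :
    U.qE Y F P h c ∈ (((U.tow Y).map F).couple P).EB s n := by
  rcases s with _ | s
  · rw [Cx.mem_B_zero] at hB
    have h1 : c = 0 := (Φ.ψ 0).injective (hB.trans (map_zero _).symm)
    rw [h1, map_zero]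
    exact AddSubgroup.zero_mem _
  · obtain ⟨y, hy⟩ := hB
    obtain ⟨c', rfl⟩ := (Φ.ψ s).surjective y
    rw [d_ψ] at hy
    have h1 : c' ≫ F.map (U.cobar.d (s + 1) Y) = c := (Φ.ψ (s + 1)).injective hy
    have h2 : (n + 1) + (s : ℤ) = 2 * w := by push_cast at h; omega
    exact ⟨U.qE Y F P h2 c', by rw [U.d_qE Y F P rfl h2 h, h1]⟩

/-- a cocycle whose class is a coboundary -/
lemma mem_B_of_qE {s : ℕ} {n : ℤ} (h : n + (s : ℤ) = 2 * w)
    (c : P⟦2 * w⟧ ⟶ F.obj (U.cobar.Q (s + 1) Y)) (hc : c ≫ F.map (U.cobar.d (s + 1) Y) = 0)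
    (hB : U.qE Y F P h c ∈ (((U.tow Y).map F).couple P).EB s n) :
    Φ.ψ s c ∈ (limCx Tw).B s := by
  rcases s with _ | s
  · rw [Couple.mem_EB_zero] at hB
    have h1 : c = 0 := U.qE_zero_injective Y F P h (hB.trans (map_zero _).symm)
    rw [Cx.mem_B_zero, h1]
    exact map_zero _
  · obtain ⟨c', rfl⟩ := U.exists_of_isCobdy Y F P h c hc hB
    exact ⟨Φ.ψ s c', Φ.d_ψ s c'⟩

omit Φ in
lemma qE_mem_EZ {s : ℕ} {n t : ℤ} (h : n + (s : ℤ) = t)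
    (c : P⟦t⟧ ⟶ F.obj (U.cobar.Q (s + 1) Y)) (hc : c ≫ F.map (U.cobar.d (s + 1) Y) = 0) :
    U.qE Y F P h c ∈ (((U.tow Y).map F).couple P).EZ s n := by
  have h2 : (n - 1) + ((s + 1 : ℕ) : ℤ) = t := by push_cast; omega
  change (((U.tow Y).map F).couple P).d s n (n - 1) (by ring) (U.qE Y F P h c) = 0
  rw [U.d_qE Y F P (by ring) h h2, hc, map_zero]

/-- **The `E_2`-term is finite iff the cohomology of the limit complex is.** -/
theorem fin_iff {s : ℕ} {n : ℤ} (h : n + (s : ℤ) = 2 * w) :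
    FinMod ((((U.tow Y).map F).couple P).EZ s n) ((((U.tow Y).map F).couple P).EB s n) ↔
      (limCx Tw).Fin s := by
  constructor
  · intro h1
    refine FinMod.of_rel (fun x z => ∃ c, Φ.ψ s c = x ∧ U.qE Y F P h c = z) h1 _
      (FinMod.refl _) ?_ ?_
    · intro x hx
      obtain ⟨c, rfl⟩ := (Φ.ψ s).surjective x
      exact ⟨_, qE_mem_EZ h c ((Φ.mem_Z_iff s c).1 hx), c, rfl, rfl⟩
    · rintro _ h₁ _ h₂ _ _ ⟨c₁, rfl, rfl⟩ ⟨c₂, rfl, rfl⟩ he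
      rw [← map_sub] at he
      have h3 : Φ.ψ s c₁ - Φ.ψ s c₂ ∈ (limCx Tw).Z s := AddSubgroup.sub_mem _ h₁ h₂
      have h4 : Φ.ψ s c₁ - Φ.ψ s c₂ = Φ.ψ s (c₁ - c₂) := (map_sub (Φ.ψ s) c₁ c₂).symm
      rw [h4] at h3 ⊢
      exact Φ.mem_B_of_qE h _ ((Φ.mem_Z_iff s _).1 h3) he
  · intro h1
    refine FinMod.of_rel (fun z x => ∃ c, Φ.ψ s c = x ∧ U.qE Y F P h c = z) h1 _
      (FinMod.refl _) ?_ ?_
    · intro z hz
      obtain ⟨c, hc, rfl⟩ := U.exists_cocycle_qE Y F P h z (Couple.mem_EZ _ |>.1 hz)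
      exact ⟨_, (Φ.mem_Z_iff s c).2 hc, c, rfl, rfl⟩
    · rintro _ h₁ _ h₂ _ _ ⟨c₁, rfl, rfl⟩ ⟨c₂, rfl, rfl⟩ he
      rw [← map_sub]
      refine Φ.qE_mem_EB h _ ?_
      rw [map_sub]
      exact he

/-- Vanishing of the `E_2`-term. -/
theorem EZ_le_of {s : ℕ} {n : ℤ} (h : n + (s : ℤ) = 2 * w)
    (hv : (limCx Tw).Z s ≤ (limCx Tw).B s) :
    (((U.tow Y).map F).couple P).EZ s n ≤ (((U.tow Y).map F).couple P).EB s n := by
  intro z hz
  obtain ⟨c, hc, rfl⟩ := U.exists_cocycle_qE Y F P h z (Couple.mem_EZ _ |>.1 hz)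
  exact Φ.qE_mem_EB h c (hv ((Φ.mem_Z_iff s c).2 hc))

end CobModel

/-- **The `E_2`-term of the tower is sparse.** -/
theorem sparse_of_model {Tw : ℤ → TowerCx.{w}} (Φ : ∀ w, U.CobModel Y F P w (Tw w))
    (hodd : ∀ (s : ℕ) (t : ℤ), Odd t → ∀ x : P⟦t⟧ ⟶ F.obj (U.cobar.Q (s + 1) Y), x = 0)
    {q : ℤ} {H : ℕ}
    (hv : ∀ (w : ℤ) (s : ℕ), ¬ (s ≤ H ∧ q ∣ w) → (limCx (Tw w)).Z s ≤ (limCx (Tw w)).B s) :
    (((U.tow Y).map F).couple P).Sparse (2 * q) H := by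
  intro s n hsn
  rcases Int.even_or_odd (n + (s : ℤ)) with he | ho
  · obtain ⟨w, hw⟩ := he
    have hw' : n + (s : ℤ) = 2 * w := by rw [hw]; ring
    refine (Φ w).EZ_le_of hw' (hv w s ?_)
    rintro ⟨h1, h2⟩
    refine hsn ⟨h1, ?_⟩
    rw [hw']
    exact mul_dvd_mul_left 2 h2
  · intro z _
    rw [E_eq_zero_of_odd hodd s n ho z]
    exact AddSubgroup.zero_mem _

end UnitCof

end Vale.Agent.P251.S
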