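import Vale.Agent.P261.H681.Lev
import Vale.Agent.P261.ML
import Vale.Agent.P261.TopModel
import Vale.Agent.P251.C.Main

/-!
# P261: sparseness of the cohomology of the towers `towerN p h w`

If `p - 1` does not divide `h`, then `H^s(lim towerN p h w) = 0` unless `s ≤ h ^ 2` and
`p - 1 ∣ w` (`lim_van`).
-/

namespace Vale.Agent.P261

open Vale.Agent.P251.C Vale.Agent.P251.F Vale.Agent.P251.S LawRing

variable {p h : ℕ} [hp : Fact p.Prime]

/-- vanishing at the levels -/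
theorem lev_van (hp2 : p ≠ 2) (hh : 1 ≤ h) (hd : ¬ (p - 1) ∣ h) (w : ℤ) (s j : ℕ)
    (hs : ¬ (s ≤ h * h ∧ ((p : ℤ) - 1) ∣ w)) :
    (levCx (Vale.Agent.P251.I.towerN p h w) j).Z s ≤
      (levCx (Vale.Agent.P251.I.towerN p h w) j).B s := by
  intro x hx
  have hxw : Cob.IsWt w (tval (w := w) (s := s) (j := j) x) :=
    (show Cob.wt (NN p h (j + 1)) s w from x).2
  have hxd : Cob.d s (tval (w := w) (s := s) (j := j) x) = 0 := congrArg Subtype.val hx
  by_cases hw : ((p : ℤ) - 1) ∣ w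
  · obtain ⟨s, rfl⟩ : ∃ t, s = t + 1 := ⟨s - 1, by
      have : ¬ s ≤ h * h := fun h1 => hs ⟨h1, hw⟩
      omega⟩
    obtain ⟨k, _, _, _, H, _, hH, hk, ⟨X⟩⟩ := hasTTower p h (by omega)
    obtain ⟨y, hy, hdy⟩ := X.vanish j w s (hH.hZero_sq Vale.Agent.P251.C.CV hp2 hh hk hd
      (X.M w j) (X.p_smul w j) (s + 1) (by
        have : ¬ s + 1 ≤ h * h := fun h1 => hs ⟨h1, hw⟩
        omega)) _ hxw hxd
    exact ⟨(show Cob.wt (NN p h (j + 1)) s w from ⟨y, hy⟩), Subtype.ext hdy⟩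
  · have key := F3w p hp2 (NN p h (j + 1)) (epi_NN p h (j + 1))
      (NN.p_eq_zero p h (j + 1)) w hw
    rcases s with _ | s
    · have h1 := key.1 _ hxw hxd
      refine Cx.mem_B_zero _ |>.2 ?_
      exact Subtype.ext h1
    · obtain ⟨y, hy, hdy⟩ := key.2 s _ hxw hxd
      exact ⟨(show Cob.wt (NN p h (j + 1)) s w from ⟨y, hy⟩), Subtype.ext hdy⟩

/-- **Sparseness**: vanishing for the limit complex. -/
theorem lim_van (hp2 : p ≠ 2) (hh : 1 ≤ h) (hd : ¬ (p - 1) ∣ h) (w : ℤ) (s : ℕ)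
    (hs : ¬ (s ≤ h * h ∧ ((p : ℤ) - 1) ∣ w)) :
    (limCx (Vale.Agent.P251.I.towerN p h w)).Z s ≤
      (limCx (Vale.Agent.P251.I.towerN p h w)).B s := by
  rcases s with _ | s
  · exact lim_le_zero _ fun j => lev_van hp2 hh hd w 0 j hs
  · exact lim_le_of_fin _ (fun s j => towerN_r_surjective p h w s j) s
      (fun j => H681.fin_lev hp2 (by omega) w s j) fun j => lev_van hp2 hh hd w (s + 1) j hs

end Vale.Agent.P261
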