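import Vale.Agent.P261.CobTow
import Mathlib.Algebra.BigOperators.Intervals
import Mathlib.Order.Interval.Finset.Nat

/-!
# P261: the window argument

Finiteness of the cohomology of the towers modulo `(v_0, …, v_{k-1})` in all weights of an interval
of length `∑_{k ≤ i < h} (p^i - 1)` implies finiteness in all weights, if it holds for `k = h`.
-/

set_option linter.unusedSectionVars false

namespace Vale.Agent.P261

open Vale.Agent.P217 Vale.Agent.P251.F Vale.Agent.P251.S LawRing

/-- An integer property invariant under translation by `e > 0` which holds on an interval of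
length `e` holds everywhere. -/
theorem forall_of_period {P : ℤ → Prop} {e : ℤ} (he : 0 < e) (hP : ∀ w, P w ↔ P (w - e)) {a : ℤ}
    (h : ∀ w, a ≤ w → w < a + e → P w) (w : ℤ) : P w := by
  have h1 : ∀ (n : ℕ) (w : ℤ), P w ↔ P (w - n * e) := by
    intro n
    induction n with
    | zero => intro w; simp
    | succ n ih =>
      intro w
      rw [ih w, hP (w - n * e)]
      have : w - (n : ℤ) * e - e = w - ((n + 1 : ℕ) : ℤ) * e := by push_cast; ring
      rw [this]
  have h2 : ∀ (n : ℤ) (w : ℤ), P w ↔ P (w - n * e) := by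
    intro n w
    rcases Int.eq_nat_or_neg n with ⟨m, rfl | rfl⟩
    · exact h1 m w
    · have := h1 m (w - (-(m : ℤ)) * e)
      rw [this]
      have e1 : w - -(m : ℤ) * e - m * e = w := by ring
      rw [e1]
  have h3 := Int.emod_add_mul_ediv (w - a) e
  rw [h2 ((w - a) / e) w]
  have h4 : w - (w - a) / e * e = a + (w - a) % e := by
    rw [mul_comm]
    linarith
  rw [h4]
  refine h _ ?_ ?_
  · have := Int.emod_nonneg (w - a) he.ne'
    linarith
  · have := Int.emod_lt_of_pos (w - a) he
    linarith

section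

variable (p : ℕ) [Fact p.Prime] (h : ℕ)
  (N : ℕ → Type) [∀ j, CommRing (N j)] [∀ j, LawRing (N j)]
  (r : ∀ j, N (j + 1) →+* N j) (hr : ∀ j, IsLawHom (r j))

/-- Finiteness of the cohomology modulo `(v_0, …, v_{k-1})` in weight `w`. -/
def FinQ (k : ℕ) (w : ℤ) : Prop := ∀ s, (limCx (quoTow p k N r hr w)).Fin s

/-- the length `∑_{k ≤ i < h} (p^i - 1)` of the window -/
def winLen (k : ℕ) : ℤ := ∑ i ∈ Finset.Ico k h, ((p ^ i : ℤ) - 1)

theorem winLen_self : winLen p h h = 0 := by
  rw [winLen, Finset.Ico_self, Finset.sum_empty]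

theorem winLen_succ {k : ℕ} (hk : k < h) :
    winLen p h k = ((p ^ k : ℤ) - 1) + winLen p h (k + 1) := by
  rw [winLen, winLen, Finset.sum_eq_sum_Ico_succ_bot hk]

theorem pow_sub_one_pos {k : ℕ} (hk : 1 ≤ k) : 0 < (p ^ k : ℤ) - 1 := by
  have h1 : 1 < p ^ k := Nat.one_lt_pow (by omega) (Fact.out : p.Prime).one_lt
  have h2 : (1 : ℤ) < (p : ℤ) ^ k := by exact_mod_cast h1
  linarith

theorem winLen_nonneg {k : ℕ} (hk : 1 ≤ k) : 0 ≤ winLen p h k := by
  refine Finset.sum_nonneg fun i hi => ?_
  have := pow_sub_one_pos p (k := i) (hk.trans (Finset.mem_Ico.1 hi).1)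
  linarith

variable (hs : ∀ j, Function.Surjective (r j))

include hs in
/-- **The window argument.** -/
theorem finQ_of_window (hreg : ∀ k, 1 ≤ k → k < h → ∀ j (x : N (j + 1)),
      vv p k (LawRing.law (N := N (j + 1))) * x ∈ IK p k (N (j + 1)) → r j x ∈ IK p k (N j))
    (hbase : ∀ w, FinQ p N r hr h w) {k : ℕ} (hk : 1 ≤ k) (hkh : k ≤ h) (a : ℤ)
    (hw : ∀ w, a ≤ w → w < a + winLen p h k → FinQ p N r hr k w) (w : ℤ) :
    FinQ p N r hr k w := by
  induction hkh using Nat.decreasingInduction generalizing a w with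
  | self => exact hbase w
  | of_succ k hkh ih =>
    have E := fun w => (vSeq p k N r hr hs (hreg k hk hkh) w).shortEx
    have hpos := pow_sub_one_pos p hk
    have hnn := winLen_nonneg p h (k := k + 1) (by omega)
    have hlen := winLen_succ p h hkh
    have h1 : ∀ w, FinQ p N r hr (k + 1) w := by
      intro w
      refine ih (by omega) (a + ((p ^ k : ℤ) - 1)) (fun w h1 h2 => ?_) w
      intro s
      exact (E w).fin_right (hw w (by linarith) (by linarith) s)
        (hw (w - ((p ^ k : ℤ) - 1)) (by linarith) (by linarith) (s + 1))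
    refine forall_of_period hpos (fun w => ⟨fun h2 => ?_, fun h2 => ?_⟩)
      (fun w h2 h3 => hw w h2 (by linarith)) w
    · exact (E w).fin_all_left (h1 w) h2
    · exact fun s => (E w).fin_mid (h2 s) (h1 w s)

end

end Vale.Agent.P261
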